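import Vale.Agent.P167.FKA.Cross
import Vale.Agent.P167.FK.Sym

/-!
# P167, general `q`, block GQ2: summary
-/

namespace Vale.Agent.P167.FKA

open Vale.Agent.P167.FK
open Vale.Agent.P167.H259 (f_markov f_fkg f_comp f_comp2)

/-- Uniform decay of the primal and dual arms. -/
theorem arm_fk {Q : ℝ} (hQ : 1 ≤ Q) (h : RSW Q) :
    ∃ α C : ℝ, 0 < α ∧ 0 < C ∧ ArmDec Q α C ∧ ArmDecD Q α C :=
  arm_dec_all hQ f_markov f_good f_fkg f_comp f_dual h

/-- Uniform exponential moment of the number of the crossing loops. -/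
theorem crossFK {Q : ℝ} (hQ : 1 ≤ Q) (h : RSW Q) : CrossFK Q :=
  cross_fk hQ f_markov f_good f_dual h

end Vale.Agent.P167.FKA
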