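import Vale.Agent.P167.FKA.Basic

/-!
# P167, general `q`, block GQ2: arms, from the strong RSW property to uniform decay
-/

namespace Vale.Agent.P167.FKA

open Finset Filter Topology MeasureTheory Vale.Agent.P167.FK
open Vale.Agent.P145.FB (PStep PConn)
open Relation

theorem nm_le_iff {v : ℤ × ℤ} {R : ℤ} :
    nm v ≤ R ↔ -R ≤ v.1 ∧ v.1 ≤ R ∧ -R ≤ v.2 ∧ v.2 ≤ R := by
  simp only [nm, max_le_iff, abs_le]
  tauto

theorem le_nm_iff {v : ℤ × ℤ} {R : ℤ} :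
    R ≤ nm v ↔ R ≤ v.1 ∨ R ≤ -v.1 ∨ R ≤ v.2 ∨ R ≤ -v.2 := by
  simp only [nm, le_max_iff, le_abs]
  tauto

theorem nm_step {F : Set (ℤ × ℤ)} {x u v : ℤ × ℤ} (h : PStep F u v) :
    nm (v - x) ≤ nm (u - x) + 1 := by
  obtain ⟨h1, h2, -⟩ := h
  have := nm_le_iff.1 (le_refl (nm (u - x)))
  rw [nm_le_iff]
  simp only [Prod.fst_sub, Prod.snd_sub] at *
  omega

theorem nm_step' {F : Set (ℤ × ℤ)} {x u v : ℤ × ℤ} (h : PStep F u v) :
    nm (u - x) ≤ nm (v - x) + 1 := nm_step h.symm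

theorem nm_nonneg (v : ℤ × ℤ) : 0 ≤ nm v := le_max_of_le_left (abs_nonneg _)

/-- A path which leaves a box, stopped at its exit. -/
theorem exit {F : Set (ℤ × ℤ)} {c : ℤ × ℤ} {R : ℤ} {u v : ℤ × ℤ}
    (h : ReflTransGen (PStep F) u v) (hu : nm (u - c) ≤ R) (hv : R ≤ nm (v - c)) :
    ∃ v', nm (v' - c) = R ∧ PConn F {w | nm (w - c) ≤ R} u v' := by
  induction h using ReflTransGen.head_induction_on with
  | refl => exact ⟨v, le_antisymm hu hv, PConn.refl hu⟩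
  | @head a b hab hbv ih =>
    rcases hu.eq_or_lt with h1 | h1
    · exact ⟨a, h1, PConn.refl hu⟩
    · have h2 := nm_step (x := c) hab
      have hb : nm (b - c) ≤ R := by omega
      obtain ⟨v', h3, h4⟩ := ih hb
      exact ⟨v', h3, ((PConn.refl (show a ∈ {w | nm (w - c) ≤ R} from hu)).tail hab hb).trans h4⟩

/-- A path passes through all the intermediate distances. -/
theorem mid {F : Set (ℤ × ℤ)} {x : ℤ × ℤ} {m : ℤ} {u v : ℤ × ℤ}
    (h : ReflTransGen (PStep F) u v) (hu : nm (u - x) ≤ m) (hv : m ≤ nm (v - x)) :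
    ∃ w, nm (w - x) = m ∧ ReflTransGen (PStep F) u w ∧ ReflTransGen (PStep F) w v := by
  induction h using ReflTransGen.head_induction_on with
  | refl => exact ⟨v, le_antisymm hu hv, ReflTransGen.refl, ReflTransGen.refl⟩
  | @head a b hab hbv ih =>
    rcases hu.eq_or_lt with h1 | h1
    · exact ⟨a, h1, ReflTransGen.refl, ReflTransGen.head hab hbv⟩
    · have h2 := nm_step (x := x) hab
      obtain ⟨w, h3, h4, h5⟩ := ih (by omega)
      exact ⟨w, h3, ReflTransGen.head hab h4, h5⟩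

theorem rtg_of_pconn {F R : Set (ℤ × ℤ)} {u v : ℤ × ℤ} (h : PConn F R u v) :
    ReflTransGen (PStep F) u v := by
  obtain ⟨-, h⟩ := h
  induction h with
  | refl => exact ReflTransGen.refl
  | tail _ h ih => exact ih.tail h.1

theorem rtg_parity {F : Set (ℤ × ℤ)} {u v : ℤ × ℤ} (h : ReflTransGen (PStep F) u v) :
    (u.1 + u.2) % 2 = (v.1 + v.2) % 2 := by
  induction h with
  | refl => rfl
  | @tail x y _ hxy ih =>
    obtain ⟨h1, h2, -⟩ := hxy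
    omega

theorem even_of_rtg {F : Set (ℤ × ℤ)} {u v : ℤ × ℤ} (hu : Even (u.1 + u.2))
    (h : ReflTransGen (PStep F) u v) : Even (v.1 + v.2) := by
  have := rtg_parity h
  rw [Int.even_iff] at *
  omega

/-- An arm, without the restriction to the box. -/
theorem armPx_iff {x : ℤ × ℤ} {r R : ℤ} (hrR : r ≤ R) {ω : Cfg} :
    ArmPx x r R ω ↔ ∃ u v : ℤ × ℤ, Even (u.1 + u.2) ∧ nm (u - x) ≤ r ∧ R ≤ nm (v - x) ∧
      ReflTransGen (PStep (op ω)) u v := by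
  constructor
  · rintro ⟨u, v, h1, h2, h3, h4⟩
    exact ⟨u, v, h1, h2, h3, rtg_of_pconn h4⟩
  · rintro ⟨u, v, h1, h2, h3, h4⟩
    obtain ⟨v', h5, h6⟩ := exit h4 (h2.trans hrR) h3
    exact ⟨u, v', h1, h2, h5.ge, h6⟩

/-- Part of an arm. -/
theorem arm_sub {x : ℤ × ℤ} {r R r' R' : ℤ} (hr : r ≤ r') (hrR' : r' ≤ R') (hR : R' ≤ R)
    {ω : Cfg} (h : ArmPx x r R ω) : ArmPx x r' R' ω := by
  obtain ⟨u, v, h1, h2, h3, h4⟩ := h
  rw [armPx_iff hrR']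
  exact ⟨u, v, h1, h2.trans hr, hR.trans h3, rtg_of_pconn h4⟩

theorem inc_arm (x : ℤ × ℤ) (r R : ℤ) : IncS {ω | ArmPx x r R ω} := by
  rintro ω ω' h ⟨u, v, h1, h2, h3, h4⟩
  exact ⟨u, v, h1, h2, h3, h4.mono (fun w hw => h w hw) (le_refl _)⟩

/-- The square of a step inside the box is in `Bq`. -/
theorem step_mem {F : Set (ℤ × ℤ)} {x : ℤ × ℤ} {R : ℤ} {u v : ℤ × ℤ} (h : PStep F u v)
    (hu : nm (u - x) ≤ R) (hv : nm (v - x) ≤ R) : (min u.1 v.1, min u.2 v.2) ∈ Bq x R := by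
  obtain ⟨h1, h2, -⟩ := h
  rw [nm_le_iff] at hu hv
  simp only [Prod.fst_sub, Prod.snd_sub] at hu hv
  simp only [Bq, Finset.mem_product, Finset.mem_Ico]
  omega

theorem step_nm {F : Set (ℤ × ℤ)} {x : ℤ × ℤ} {R : ℤ} {u v : ℤ × ℤ} (h : PStep F u v)
    (hm : (min u.1 v.1, min u.2 v.2) ∈ Bq x R) : nm (u - x) ≤ R ∧ nm (v - x) ≤ R := by
  obtain ⟨h1, h2, -⟩ := h
  simp only [Bq, Finset.mem_product, Finset.mem_Ico] at hm
  rw [nm_le_iff, nm_le_iff]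
  simp only [Prod.fst_sub, Prod.snd_sub]
  omega

/-- Arm events are local. -/
theorem arm_loc (x : ℤ × ℤ) (r R : ℤ) {ω ω' : Cfg} (h : ∀ v ∈ Bq x R, ω v = ω' v)
    (ha : ArmPx x r R ω) : ArmPx x r R ω' := by
  obtain ⟨u, v, h1, h2, h3, h0, h4⟩ := ha
  refine ⟨u, v, h1, h2, h3, h0, ?_⟩
  induction h4 with
  | refl => exact ReflTransGen.refl
  | @tail a b hab hst ih =>
    have ha : a ∈ {w | nm (w - x) ≤ R} :=
      (show PConn (op ω) {w | nm (w - x) ≤ R} u a from ⟨h0, hab⟩).right_mem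
    by_cases hb : R ≤ nm (a - x)
    · have hm := step_mem hst.1 ha hst.2
      refine (ih hb).tail ⟨⟨hst.1.1, hst.1.2.1, ?_⟩, hst.2⟩
      show ω' _ = true
      rw [← h _ hm]
      exact hst.1.2.2
    · have hm := step_mem hst.1 ha hst.2
      have key : ReflTransGen (fun x_1 y => PStep (op ω') x_1 y ∧ y ∈ {w | nm (w - x) ≤ R}) u a := by
        clear ih hb hst h3 hm ha
        induction hab with
        | refl => exact ReflTransGen.refl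
        | @tail c d hcd hst ih =>
          have hc : c ∈ {w | nm (w - x) ≤ R} :=
            (show PConn (op ω) {w | nm (w - x) ≤ R} u c from ⟨h0, hcd⟩).right_mem
          have hm := step_mem hst.1 hc hst.2
          refine ih.tail ⟨⟨hst.1.1, hst.1.2.1, ?_⟩, hst.2⟩
          show ω' _ = true
          rw [← h _ hm]
          exact hst.1.2.2
      refine key.tail ⟨⟨hst.1.1, hst.1.2.1, ?_⟩, hst.2⟩
      show ω' _ = true
      rw [← h _ hm]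
      exact hst.1.2.2

theorem loc_arm (x : ℤ × ℤ) (r R : ℤ) : Loc (Bq x R) ({ω | ArmPx x r R ω}.indicator 1) := by
  intro ω ω' h
  by_cases h1 : ω ∈ {ω | ArmPx x r R ω}
  · have h2 : ω' ∈ {ω | ArmPx x r R ω} := arm_loc x r R h h1
    rw [Set.indicator_of_mem h1, Set.indicator_of_mem h2]
    rfl
  · have h2 : ω' ∉ {ω | ArmPx x r R ω} :=
      fun h2 => h1 (arm_loc x r R (fun v hv => (h v hv).symm) h2)
    rw [Set.indicator_of_notMem h1, Set.indicator_of_notMem h2]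

/-- The centres of the boxes which cover the ring. -/
noncomputable def ctr (Λ : ℤ) : Finset (ℤ × ℤ) :=
  (Finset.Icc (-(Λ + 1)) (Λ + 1) ×ˢ Finset.Icc (-(Λ + 1)) (Λ + 1)).filter
    (fun i => |i.1| = Λ + 1 ∨ |i.2| = Λ + 1)

/-- The point of the grid. -/
def gp (x : ℤ × ℤ) (r : ℤ) (i : ℤ × ℤ) : ℤ × ℤ := (x.1 + r * i.1, x.2 + r * i.2)

theorem abs_eq_iff {a b : ℤ} (hb : 0 ≤ b) : |a| = b ↔ a = b ∨ a = -b := abs_eq hb

/-- Every point of the ring is close to a centre. -/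
theorem near_ctr {x : ℤ × ℤ} {r Λ : ℤ} (hr : 1 ≤ r) (hΛ : 2 ≤ Λ) {w : ℤ × ℤ}
    (hw : nm (w - x) = (Λ + 1) * r) : ∃ i ∈ ctr Λ, nm (w - gp x r i) ≤ r := by
  have hdiv : ∀ a : ℤ, -((Λ + 1) * r) ≤ a → a ≤ (Λ + 1) * r →
      -(Λ + 1) ≤ a / r ∧ a / r ≤ Λ + 1 ∧ 0 ≤ a - r * (a / r) ∧ a - r * (a / r) ≤ r := by
    intro a h1 h2
    have h3 := Int.emod_add_mul_ediv a r
    have h4 := Int.emod_nonneg a (by omega : r ≠ 0)
    have h5 := Int.emod_lt_of_pos a (by omega : 0 < r)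
    refine ⟨?_, ?_, by linarith, by linarith⟩
    · rw [Int.le_ediv_iff_mul_le (by omega)]; linarith
    · exact Int.ediv_le_of_le_mul (by omega) (by linarith)
  have h1 := nm_le_iff.1 hw.le
  have h2 := le_nm_iff.1 hw.ge
  simp only [Prod.fst_sub, Prod.snd_sub] at h1 h2
  obtain ⟨a1, a2, a3, a4⟩ := hdiv (w.1 - x.1) h1.1 h1.2.1
  obtain ⟨b1, b2, b3, b4⟩ := hdiv (w.2 - x.2) h1.2.2.1 h1.2.2.2
  have hmem : ∀ i : ℤ × ℤ, -(Λ + 1) ≤ i.1 → i.1 ≤ Λ + 1 → -(Λ + 1) ≤ i.2 → i.2 ≤ Λ + 1 →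
      (|i.1| = Λ + 1 ∨ |i.2| = Λ + 1) → i ∈ ctr Λ := by
    intro i c1 c2 c3 c4 c5
    simp only [ctr, Finset.mem_filter, Finset.mem_product, Finset.mem_Icc]
    exact ⟨⟨⟨c1, c2⟩, c3, c4⟩, c5⟩
  rcases h2 with h | h | h | h
  · refine ⟨(Λ + 1, (w.2 - x.2) / r), hmem _ (by dsimp only; omega) (by dsimp only; omega) b1 b2
      (Or.inl (abs_of_nonneg (by omega))), ?_⟩
    rw [nm_le_iff]
    simp only [gp, Prod.fst_sub, Prod.snd_sub]
    refine ⟨?_, ?_, ?_, ?_⟩ <;> nlinarith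
  · refine ⟨(-(Λ + 1), (w.2 - x.2) / r), hmem _ (by dsimp only; omega) (by dsimp only; omega) b1 b2
      (Or.inl (by dsimp only; rw [abs_neg, abs_of_nonneg (by omega)])), ?_⟩
    rw [nm_le_iff]
    simp only [gp, Prod.fst_sub, Prod.snd_sub]
    refine ⟨?_, ?_, ?_, ?_⟩ <;> nlinarith
  · refine ⟨((w.1 - x.1) / r, Λ + 1), hmem _ a1 a2 (by dsimp only; omega) (by dsimp only; omega)
      (Or.inr (abs_of_nonneg (by omega))), ?_⟩
    rw [nm_le_iff]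
    simp only [gp, Prod.fst_sub, Prod.snd_sub]
    refine ⟨?_, ?_, ?_, ?_⟩ <;> nlinarith
  · refine ⟨((w.1 - x.1) / r, -(Λ + 1)), hmem _ a1 a2 (by dsimp only; omega) (by dsimp only; omega)
      (Or.inr (by dsimp only; rw [abs_neg, abs_of_nonneg (by omega)])), ?_⟩
    rw [nm_le_iff]
    simp only [gp, Prod.fst_sub, Prod.snd_sub]
    refine ⟨?_, ?_, ?_, ?_⟩ <;> nlinarith

theorem mem_ctr {Λ : ℤ} {i : ℤ × ℤ} (h : i ∈ ctr Λ) (hΛ : 2 ≤ Λ) :
    (-(Λ + 1) ≤ i.1 ∧ i.1 ≤ Λ + 1 ∧ -(Λ + 1) ≤ i.2 ∧ i.2 ≤ Λ + 1) ∧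
      (i.1 = Λ + 1 ∨ i.1 = -(Λ + 1) ∨ i.2 = Λ + 1 ∨ i.2 = -(Λ + 1)) := by
  simp only [ctr, Finset.mem_filter, Finset.mem_product, Finset.mem_Icc] at h
  obtain ⟨⟨⟨h1, h2⟩, h3, h4⟩, h5⟩ := h
  rw [abs_eq_iff (by omega), abs_eq_iff (by omega)] at h5
  exact ⟨⟨h1, h2, h3, h4⟩, by tauto⟩

/-- The small boxes are in the annulus. -/
theorem ctr_sub {x : ℤ × ℤ} {r Λ : ℤ} (hr : 1 ≤ r) (hΛ : 2 ≤ Λ) {i : ℤ × ℤ} (hi : i ∈ ctr Λ) :
    Bq (gp x r i) (Λ * r) ⊆ Bq x ((2 * Λ + 1) * r) \ Bq x r := by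
  obtain ⟨⟨h1, h2, h3, h4⟩, h5⟩ := mem_ctr hi hΛ
  intro v hv
  simp only [Bq, gp, Finset.mem_product, Finset.mem_Ico] at hv
  have a1 : r * i.1 ≤ (Λ + 1) * r := by nlinarith
  have a2 : -((Λ + 1) * r) ≤ r * i.1 := by nlinarith
  have a3 : r * i.2 ≤ (Λ + 1) * r := by nlinarith
  have a4 : -((Λ + 1) * r) ≤ r * i.2 := by nlinarith
  simp only [Bq, Finset.mem_sdiff, Finset.mem_product, Finset.mem_Ico, not_and, not_lt]
  refine ⟨⟨⟨by nlinarith, by nlinarith⟩, by nlinarith, by nlinarith⟩, ?_⟩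
  intro h6 h7
  rcases h5 with h | h | h | h <;> rw [h] at hv
  · exfalso; nlinarith [hv.1.1, h6.2]
  · exfalso; nlinarith [hv.1.2, h6.1]
  · nlinarith [hv.2.1]
  · exfalso; nlinarith [hv.2.2, h7]

/-- An arm of the annulus gives an arm of one of the small boxes. -/
theorem arm_ctr {x : ℤ × ℤ} {r Λ : ℤ} (hr : 1 ≤ r) (hΛ : 2 ≤ Λ) {ω : Cfg}
    (h : ArmPx x r ((2 * Λ + 1) * r) ω) : ∃ i ∈ ctr Λ, ArmPx (gp x r i) r (Λ * r) ω := by
  obtain ⟨u, v, h1, h2, h3, h4⟩ := h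
  have h5 := rtg_of_pconn h4
  obtain ⟨w, h6, h7, h8⟩ := mid (m := (Λ + 1) * r) h5 (by nlinarith) (by nlinarith)
  obtain ⟨i, hi, h9⟩ := near_ctr hr hΛ h6
  refine ⟨i, hi, ?_⟩
  rw [armPx_iff (by nlinarith)]
  refine ⟨w, v, even_of_rtg h1 h7, h9, ?_, h8⟩
  obtain ⟨⟨c1, c2, c3, c4⟩, -⟩ := mem_ctr hi hΛ
  rw [le_nm_iff] at h3 ⊢
  simp only [gp, Prod.fst_sub, Prod.snd_sub] at h3 ⊢
  have a1 : r * i.1 ≤ (Λ + 1) * r := by nlinarith
  have a2 : -((Λ + 1) * r) ≤ r * i.1 := by nlinarith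
  have a3 : r * i.2 ≤ (Λ + 1) * r := by nlinarith
  have a4 : -((Λ + 1) * r) ≤ r * i.2 := by nlinarith
  rcases h3 with h | h | h | h
  · left; nlinarith
  · right; left; nlinarith
  · right; right; left; nlinarith
  · right; right; right; nlinarith

section

variable {Q : ℝ} (hQ : 1 ≤ Q) (hm : F_markov) (hg : F_good) (hf : F_fkg) (hc : F_comp)

/-- Strong RSW for primal arms. -/
def RSWp (Q : ℝ) : Prop := ∃ (Λ : ℤ) (c : ℝ), 2 ≤ Λ ∧ 0 < c ∧ c ≤ 1 ∧ ∀ (x : ℤ × ℤ) (r : ℤ),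
  1 ≤ r → Pr Q (Bq x (Λ * r)) eta1 {ω | ArmPx x r (Λ * r) ω} ≤ 1 - c

theorem rswp_of_rsw (hQ : 0 < Q) (h : RSW Q) : RSWp Q := by
  obtain ⟨Λ, c, h1, h2, h3⟩ := h
  exact ⟨Λ, min c 1, h1, lt_min h2 one_pos, min_le_right _ _, fun x r hr =>
    (h3 x r hr).1.trans (by linarith [min_le_left c 1])⟩

include hQ hm hg hf hc

/-- Two-sided RSW, uniformly in the boundary conditions. -/
theorem two_sided (h : RSWp Q) : ∃ (L : ℤ) (c : ℝ), 2 ≤ L ∧ 0 < c ∧ c < 1 ∧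
    ∀ (x : ℤ × ℤ) (r : ℤ) (η : Cfg), 1 ≤ r → Good η →
      Pr Q (Bq x (L * r) \ Bq x r) η {ω | ArmPx x r (L * r) ω} ≤ 1 - c := by
  have hQ0 : 0 < Q := by linarith
  obtain ⟨Λ, c, hΛ, hc0, hc1, h⟩ := h
  refine ⟨2 * Λ + 1, c ^ (ctr Λ).card / 2, by omega, by positivity, ?_, ?_⟩
  · have := pow_le_one₀ (n := (ctr Λ).card) hc0.le hc1
    linarith
  intro x r η hr hη
  set A := Bq x ((2 * Λ + 1) * r) \ Bq x r with hA
  have h1 : ∀ i ∈ ctr Λ, c ≤ Pr Q A η {ω | ArmPx (gp x r i) r (Λ * r) ω}ᶜ := by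
    intro i hi
    rw [Pr_compl hQ0]
    have h2 : Pr Q A η {ω | ArmPx (gp x r i) r (Λ * r) ω} ≤ 1 - c := by
      have h3 := markov_le hm hg hQ0 (ctr_sub (x := x) hr hΛ hi) hη
        (F := {ω | ArmPx (gp x r i) r (Λ * r) ω}.indicator 1) (G := fun _ => 1)
        (fun _ _ _ => rfl) (fun _ => zero_le_one) (a := 1 - c) (fun ω hω => ?_)
      · rw [Ex_const hQ0] at h3
        simp only [one_mul, mul_one] at h3
        exact h3
      · refine le_trans ?_ (h (gp x r i) r hr)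
        exact hc Q _ ω eta1 _ hQ hω hg.2.2 (fun _ _ => rfl) (inc_arm _ _ _).incF
    linarith
  have h2 : c ^ (ctr Λ).card ≤ Pr Q A η (⋂ i ∈ ctr Λ, {ω | ArmPx (gp x r i) r (Λ * r) ω}ᶜ) := by
    refine le_trans ?_ (fkg_dec hf hQ hη (ctr Λ) _ fun i _ => (inc_arm _ _ _).compl)
    rw [← Finset.prod_const]
    exact Finset.prod_le_prod (fun _ _ => hc0.le) h1
  have h3 : Pr Q A η (⋂ i ∈ ctr Λ, {ω | ArmPx (gp x r i) r (Λ * r) ω}ᶜ) ≤
      Pr Q A η {ω | ArmPx x r ((2 * Λ + 1) * r) ω}ᶜ := by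
    refine Pr_mono hQ0 ?_
    intro ω hω hω'
    simp only [Set.mem_iInter] at hω
    obtain ⟨i, hi, h4⟩ := arm_ctr hr hΛ hω'
    exact hω i hi h4
  rw [Pr_compl hQ0] at h3
  have : 0 < c ^ (ctr Λ).card := by positivity
  linarith

/-- Conditional form of the arm decay. -/
def ArmDec (Q α C : ℝ) : Prop := ∀ (x : ℤ × ℤ) (r R : ℤ) (D : Finset (ℤ × ℤ)) (η : Cfg)
  (G : Cfg → ℝ), 1 ≤ r → r ≤ R → Good η → Bq x R \ Bq x r ⊆ D → (∀ ω, 0 ≤ G ω) →
  Ind (Bq x R \ Bq x r) G →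
  Ex Q D η (fun ω => G ω * {ω | ArmPx x r R ω}.indicator 1 ω) ≤
    C * ((r : ℝ) / R) ^ α * Ex Q D η G

theorem arm_dec (h : RSWp Q) : ∃ α C : ℝ, 0 < α ∧ 0 < C ∧ ArmDec Q α C := by
  have hQ0 : 0 < Q := by linarith
  obtain ⟨L, c, hL, hc0, hc1, h⟩ := two_sided hQ hm hg hf hc h
  obtain ⟨α, C, hα, hC, hpow⟩ := pow_decay (a := 1 - c) (by linarith) (by linarith) hL
  refine ⟨α, C, hα, hC, ?_⟩
  intro x r R D η G hr hrR hη hD hG0 hG
  have key : ∀ n : ℕ, L ^ n * r ≤ R → ∃ P : Cfg → ℝ, (∀ ω, 0 ≤ P ω) ∧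
      (∀ ω, ArmPx x r R ω → 1 ≤ P ω) ∧ Loc (Bq x (L ^ n * r)) P ∧
      Ex Q D η (fun ω => G ω * P ω) ≤ (1 - c) ^ n * Ex Q D η G := by
    intro n
    induction n with
    | zero =>
      intro _
      exact ⟨fun _ => 1, fun _ => zero_le_one, fun _ _ => le_refl _, fun _ _ _ => rfl, by simp⟩
    | succ n ih =>
      intro hn
      have hLn : (1 : ℤ) ≤ L ^ n := one_le_pow₀ (by omega)
      have hrn : r ≤ L ^ n * r := by nlinarith
      have e : L ^ (n + 1) * r = L * (L ^ n * r) := by ring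
      have hrn' : L ^ n * r ≤ L ^ (n + 1) * r := by rw [e]; nlinarith
      obtain ⟨P, h0, h1, h2, h3⟩ := ih (hrn'.trans hn)
      have hsub : ∀ a b : ℤ, a ≤ b → Bq x a ⊆ Bq x b := by
        intro a b hab v hv
        simp only [Bq, Finset.mem_product, Finset.mem_Ico] at hv ⊢
        omega
      refine ⟨fun ω => P ω * {ω | ArmPx x (L ^ n * r) (L * (L ^ n * r)) ω}.indicator 1 ω,
        fun ω => mul_nonneg (h0 ω) (ind_nonneg _ _), ?_, ?_, ?_⟩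
      · intro ω hω
        have h4 : ω ∈ {ω | ArmPx x (L ^ n * r) (L * (L ^ n * r)) ω} :=
          arm_sub hrn (by rw [← e]; exact hrn') (by rw [← e]; exact hn) hω
        show 1 ≤ P ω * {ω | ArmPx x (L ^ n * r) (L * (L ^ n * r)) ω}.indicator 1 ω
        rw [Set.indicator_of_mem h4]
        simpa using h1 ω hω
      · intro ω ω' h4
        have h5 : P ω = P ω' := h2 ω ω' fun v hv => h4 v (hsub _ _ hrn' hv)
        have h6 := loc_arm x (L ^ n * r) (L * (L ^ n * r)) ω ω' fun v hv =>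
          h4 v (by rw [e]; exact hv)
        simp only [h5, h6]
      · have hAD : Bq x (L * (L ^ n * r)) \ Bq x (L ^ n * r) ⊆ Bq x R \ Bq x r := by
          refine Finset.sdiff_subset_sdiff (hsub _ _ (by rw [← e]; exact hn)) (hsub _ _ hrn)
        have h7 := markov_le hm hg hQ0 (hAD.trans hD) hη
          (F := {ω | ArmPx x (L ^ n * r) (L * (L ^ n * r)) ω}.indicator 1)
          (G := fun ω => G ω * P ω) (a := 1 - c) ?_ (fun ω => mul_nonneg (hG0 ω) (h0 ω))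
          (fun ω hω => h x (L ^ n * r) ω (by omega) hω)
        · simp only [mul_assoc] at h7 ⊢
          refine h7.trans ?_
          rw [pow_succ, mul_comm ((1 - c) ^ n), mul_assoc]
          exact mul_le_mul_of_nonneg_left h3 (by linarith)
        · refine (hG.mono hAD).mul (h2.ind ?_)
          exact Finset.disjoint_sdiff
  have hGE : 0 ≤ Ex Q D η G := Ex_nonneg hQ0 fun _ _ => hG0 _
  have h5 : ∀ n : ℕ, L ^ n * r ≤ R →
      Ex Q D η (fun ω => G ω * {ω | ArmPx x r R ω}.indicator 1 ω) ≤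
        (1 - c) ^ n * Ex Q D η G := by
    intro n hn
    obtain ⟨P, h0, h1, -, h3⟩ := key n hn
    refine le_trans (Ex_mono hQ0 fun S _ => ?_) h3
    refine mul_le_mul_of_nonneg_left ?_ (hG0 _)
    by_cases h4 : cf D η S ∈ {ω | ArmPx x r R ω}
    · rw [Set.indicator_of_mem h4]
      exact h1 _ h4
    · rw [Set.indicator_of_notMem h4]
      exact h0 _
  rcases hGE.eq_or_lt with h6 | h6
  · have := h5 0 (by simpa using hrR)
    rw [← h6, mul_zero] at this ⊢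
    exact this
  · have h7 := hpow (Ex Q D η (fun ω => G ω * {ω | ArmPx x r R ω}.indicator 1 ω) / Ex Q D η G)
      r R hr hrR fun n hn => by rw [div_le_iff₀ h6]; exact h5 n hn
    rwa [div_le_iff₀ h6] at h7

end

end Vale.Agent.P167.FKA
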