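import Vale.Agent.P167.FK.Defs

/-!
# P167, general `q`, block GQ2: elementary facts about the finite-volume expectations
-/

namespace Vale.Agent.P167.FKA

open Finset Filter Topology MeasureTheory Vale.Agent.P167.FK
open Vale.Agent.P145.FB (PStep PConn)

variable {Q : ℝ} {D : Finset (ℤ × ℤ)} {η : Cfg}

theorem Zq_pos (hQ : 0 < Q) (D : Finset (ℤ × ℤ)) (η : Cfg) : 0 < Zq Q D η :=
  Finset.sum_pos (fun _ _ => pow_pos hQ _) ⟨∅, by simp⟩

theorem Ex_mono (hQ : 0 < Q) {F G : Cfg → ℝ} (h : ∀ S, S ⊆ D → F (cf D η S) ≤ G (cf D η S)) :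
    Ex Q D η F ≤ Ex Q D η G := by
  unfold Ex
  refine div_le_div_of_nonneg_right (Finset.sum_le_sum fun S hS => ?_) (Zq_pos hQ D η).le
  exact mul_le_mul_of_nonneg_left (h S (Finset.mem_powerset.1 hS)) (pow_pos hQ _).le

theorem Ex_congr {F G : Cfg → ℝ} (h : ∀ S, S ⊆ D → F (cf D η S) = G (cf D η S)) :
    Ex Q D η F = Ex Q D η G := by
  unfold Ex
  congr 1
  exact Finset.sum_congr rfl fun S hS => by rw [h S (Finset.mem_powerset.1 hS)]

theorem Ex_const (hQ : 0 < Q) (a : ℝ) : Ex Q D η (fun _ => a) = a := by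
  unfold Ex
  rw [← Finset.sum_mul]
  exact mul_div_cancel_left₀ a (Zq_pos hQ D η).ne'

theorem Ex_mul_left (a : ℝ) (F : Cfg → ℝ) : Ex Q D η (fun ω => a * F ω) = a * Ex Q D η F := by
  unfold Ex
  rw [← mul_div_assoc, Finset.mul_sum]
  congr 1
  exact Finset.sum_congr rfl fun S _ => by ring

theorem Ex_add (F G : Cfg → ℝ) :
    Ex Q D η (fun ω => F ω + G ω) = Ex Q D η F + Ex Q D η G := by
  unfold Ex
  rw [← add_div, ← Finset.sum_add_distrib]
  congr 1
  exact Finset.sum_congr rfl fun S _ => by ring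

theorem Ex_neg (F : Cfg → ℝ) : Ex Q D η (fun ω => - F ω) = - Ex Q D η F := by
  have h := Ex_mul_left (Q := Q) (D := D) (η := η) (-1) F
  simp only [neg_one_mul] at h
  exact h

theorem Ex_sub (F G : Cfg → ℝ) :
    Ex Q D η (fun ω => F ω - G ω) = Ex Q D η F - Ex Q D η G := by
  simp only [sub_eq_add_neg]
  rw [Ex_add, Ex_neg]

theorem Ex_sum {ι : Type*} (I : Finset ι) (F : ι → Cfg → ℝ) :
    Ex Q D η (fun ω => ∑ i ∈ I, F i ω) = ∑ i ∈ I, Ex Q D η (F i) := by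
  unfold Ex
  rw [← Finset.sum_div]
  congr 1
  rw [Finset.sum_comm]
  exact Finset.sum_congr rfl fun S _ => by rw [Finset.mul_sum]

theorem Ex_nonneg (hQ : 0 < Q) {F : Cfg → ℝ} (h : ∀ S, S ⊆ D → 0 ≤ F (cf D η S)) :
    0 ≤ Ex Q D η F := by
  rw [← Ex_const (D := D) (η := η) hQ 0]
  exact Ex_mono hQ h

theorem abs_Ex_le (hQ : 0 < Q) (F : Cfg → ℝ) : |Ex Q D η F| ≤ Ex Q D η (fun ω => |F ω|) := by
  rw [abs_le]
  constructor
  · rw [← Ex_neg]
    exact Ex_mono hQ fun S _ => neg_abs_le _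
  · exact Ex_mono hQ fun S _ => le_abs_self _

theorem ind_nonneg (A : Set Cfg) (ω : Cfg) : (0 : ℝ) ≤ A.indicator 1 ω :=
  Set.indicator_nonneg (fun _ _ => zero_le_one) _

theorem ind_le_one (A : Set Cfg) (ω : Cfg) : A.indicator 1 ω ≤ (1 : ℝ) :=
  Set.indicator_le_self' (fun _ _ => zero_le_one) _

theorem Pr_nonneg (hQ : 0 < Q) (A : Set Cfg) : 0 ≤ Pr Q D η A :=
  Ex_nonneg hQ fun _ _ => ind_nonneg _ _

theorem Pr_le_one (hQ : 0 < Q) (A : Set Cfg) : Pr Q D η A ≤ 1 := by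
  have h := Ex_const (D := D) (η := η) hQ 1
  rw [← h]
  exact Ex_mono hQ fun _ _ => ind_le_one _ _

theorem Pr_mono (hQ : 0 < Q) {A B : Set Cfg} (h : A ⊆ B) : Pr Q D η A ≤ Pr Q D η B :=
  Ex_mono hQ fun _ _ => Set.indicator_le_indicator_of_subset h (fun _ => zero_le_one) _

theorem ind_compl (A : Set Cfg) (ω : Cfg) : Aᶜ.indicator (1 : Cfg → ℝ) ω = 1 - A.indicator 1 ω := by
  by_cases h : ω ∈ A <;> simp [h]

theorem Pr_compl (hQ : 0 < Q) (A : Set Cfg) : Pr Q D η Aᶜ = 1 - Pr Q D η A := by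
  unfold Pr
  have h : (Aᶜ.indicator (1 : Cfg → ℝ)) = fun ω => 1 - A.indicator 1 ω := funext (ind_compl A)
  rw [h, Ex_sub, Ex_const hQ]

theorem ind_inter (A B : Set Cfg) (ω : Cfg) :
    (A ∩ B).indicator (1 : Cfg → ℝ) ω = A.indicator 1 ω * B.indicator 1 ω := by
  by_cases h : ω ∈ A <;> by_cases h' : ω ∈ B <;> simp [h, h']

/-- `F` does not depend on the squares of `A`. -/
def Ind (A : Finset (ℤ × ℤ)) (F : Cfg → ℝ) : Prop :=
  ∀ ω ω' : Cfg, (∀ v, v ∉ A → ω v = ω' v) → F ω = F ω'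

/-- `F` depends only on the squares of `A`. -/
def Loc (A : Finset (ℤ × ℤ)) (F : Cfg → ℝ) : Prop :=
  ∀ ω ω' : Cfg, (∀ v, v ∈ A → ω v = ω' v) → F ω = F ω'

theorem cf_out {A : Finset (ℤ × ℤ)} {ω : Cfg} {S : Finset (ℤ × ℤ)} {v : ℤ × ℤ} (h : v ∉ A) :
    cf A ω S v = ω v := by simp [cf, h]

theorem Ind.mul {A : Finset (ℤ × ℤ)} {F G : Cfg → ℝ} (hF : Ind A F) (hG : Ind A G) :
    Ind A (fun ω => F ω * G ω) := fun ω ω' h => by simp only [hF ω ω' h, hG ω ω' h]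

theorem Ind.mono {A B : Finset (ℤ × ℤ)} (h : A ⊆ B) {F : Cfg → ℝ} (hF : Ind B F) : Ind A F :=
  fun ω ω' h' => hF ω ω' fun v hv => h' v fun hvA => hv (h hvA)

theorem Loc.ind {A B : Finset (ℤ × ℤ)} (h : Disjoint A B) {F : Cfg → ℝ} (hF : Loc A F) :
    Ind B F :=
  fun ω ω' h' => hF ω ω' fun v hv => h' v fun hvB => (Finset.disjoint_left.1 h) hv hvB

/-- Markov property with a factor which does not depend on the inner domain. -/
theorem markov (hm : F_markov) (hQ : 0 < Q) {A : Finset (ℤ × ℤ)} (hA : A ⊆ D) (hη : Good η)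
    {F G : Cfg → ℝ} (hG : Ind A G) :
    Ex Q D η (fun ω => G ω * F ω) = Ex Q D η (fun ω => G ω * Ex Q A ω F) := by
  rw [hm Q A D η _ hQ hA hη]
  refine Ex_congr fun S _ => ?_
  rw [← Ex_mul_left]
  refine Ex_congr fun T _ => ?_
  rw [hG (cf A (cf D η S) T) (cf D η S) fun v hv => cf_out hv]

/-- If the conditional expectation is bounded by `a` then so is the expectation. -/
theorem markov_le (hm : F_markov) (hg : F_good) (hQ : 0 < Q) {A : Finset (ℤ × ℤ)} (hA : A ⊆ D)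
    (hη : Good η) {F G : Cfg → ℝ} (hG : Ind A G) (hG0 : ∀ ω, 0 ≤ G ω) {a : ℝ}
    (h : ∀ ω, Good ω → Ex Q A ω F ≤ a) :
    Ex Q D η (fun ω => G ω * F ω) ≤ a * Ex Q D η G := by
  rw [markov hm hQ hA hη hG, ← Ex_mul_left]
  refine Ex_mono hQ fun S _ => ?_
  rw [mul_comm a]
  exact mul_le_mul_of_nonneg_left (h _ (hg.1 D η S hη)) (hG0 _)

/-- Decreasing events. -/
def DecS (A : Set Cfg) : Prop :=
  ∀ ω ω' : Cfg, (∀ v, ω v = true → ω' v = true) → ω' ∈ A → ω ∈ A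

/-- Increasing events. -/
def IncS (A : Set Cfg) : Prop :=
  ∀ ω ω' : Cfg, (∀ v, ω v = true → ω' v = true) → ω ∈ A → ω' ∈ A

theorem IncS.compl {A : Set Cfg} (h : IncS A) : DecS Aᶜ := fun ω ω' h' h'' h3 => h'' (h ω ω' h' h3)

theorem IncS.incF {A : Set Cfg} (h : IncS A) : IncF (A.indicator 1) := by
  intro ω ω' h'
  by_cases h1 : ω ∈ A
  · rw [Set.indicator_of_mem h1, Set.indicator_of_mem (h ω ω' h' h1)]
    simp
  · rw [Set.indicator_of_notMem h1]
    exact ind_nonneg _ _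

theorem DecS.incF {A : Set Cfg} (h : DecS A) : IncF (fun ω => - A.indicator 1 ω) := by
  intro ω ω' h'
  show - A.indicator 1 ω ≤ - A.indicator 1 ω'
  by_cases h1 : ω' ∈ A
  · rw [Set.indicator_of_mem h1, Set.indicator_of_mem (h ω ω' h' h1)]
    simp
  · rw [Set.indicator_of_notMem h1]
    simpa using ind_nonneg A ω

theorem fkg_dec2 (hf : F_fkg) (hQ : 1 ≤ Q) (hη : Good η) {A B : Set Cfg} (hA : DecS A)
    (hB : DecS B) : Pr Q D η A * Pr Q D η B ≤ Pr Q D η (A ∩ B) := by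
  have h := hf Q D η _ _ hQ hη hA.incF hB.incF
  rw [Ex_neg, Ex_neg, neg_mul_neg] at h
  refine h.trans (le_of_eq ?_)
  exact Ex_congr fun S _ => by rw [ind_inter]; ring

theorem DecS.inter {A B : Set Cfg} (hA : DecS A) (hB : DecS B) : DecS (A ∩ B) :=
  fun ω ω' h h' => ⟨hA ω ω' h h'.1, hB ω ω' h h'.2⟩

theorem DecS.iInter {ι : Type*} {I : Finset ι} {A : ι → Set Cfg} (hA : ∀ i ∈ I, DecS (A i)) :
    DecS (⋂ i ∈ I, A i) := by
  intro ω ω' h h'
  simp only [Set.mem_iInter] at h' ⊢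
  exact fun i hi => hA i hi ω ω' h (h' i hi)

theorem fkg_dec (hf : F_fkg) (hQ : 1 ≤ Q) (hη : Good η) {ι : Type*} (I : Finset ι)
    (A : ι → Set Cfg) (hA : ∀ i ∈ I, DecS (A i)) :
    ∏ i ∈ I, Pr Q D η (A i) ≤ Pr Q D η (⋂ i ∈ I, A i) := by
  classical
  have hQ0 : 0 < Q := by linarith
  induction I using Finset.induction_on with
  | empty =>
    simp only [Finset.prod_empty, Finset.notMem_empty, Set.iInter_of_empty, Set.iInter_univ]
    unfold Pr
    rw [Set.indicator_univ]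
    exact (Ex_const hQ0 1).ge
  | insert i I hi ih =>
    rw [Finset.prod_insert hi, Finset.set_biInter_insert]
    have h1 := ih fun j hj => hA j (Finset.mem_insert_of_mem hj)
    refine (mul_le_mul_of_nonneg_left h1 (Pr_nonneg hQ0 _)).trans ?_
    exact fkg_dec2 hf hQ hη (hA i (Finset.mem_insert_self _ _))
      (DecS.iInter fun j hj => hA j (Finset.mem_insert_of_mem hj))

/-- From geometric decay over the scales `L ^ n` to a power law. -/
theorem pow_decay {a : ℝ} (ha0 : 0 < a) (ha1 : a < 1) {L : ℤ} (hL : 2 ≤ L) :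
    ∃ α C : ℝ, 0 < α ∧ 0 < C ∧ ∀ (p : ℝ) (r R : ℤ), 1 ≤ r → r ≤ R →
      (∀ n : ℕ, L ^ n * r ≤ R → p ≤ a ^ n) → p ≤ C * ((r : ℝ) / R) ^ α := by
  have hL' : (2 : ℝ) ≤ L := by exact_mod_cast hL
  have hL0 : (0 : ℝ) < L := by linarith
  set α : ℝ := - Real.logb L a with hα
  have hα0 : 0 < α := by
    rw [hα, neg_pos]
    exact Real.logb_neg (by linarith) ha0 ha1
  have h4 : (L : ℝ) ^ (-α) = a := by
    rw [hα, neg_neg, Real.rpow_logb hL0 (by linarith) ha0]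
  refine ⟨α, a⁻¹, hα0, by positivity, fun p r R hr hrR h => ?_⟩
  have hr' : (1 : ℝ) ≤ r := by exact_mod_cast hr
  have hR' : (r : ℝ) ≤ R := by exact_mod_cast hrR
  have hRp : (0 : ℝ) < R := by linarith
  obtain ⟨n, hn1, hn2⟩ : ∃ n : ℕ, L ^ n * r ≤ R ∧ R < L ^ (n + 1) * r := by
    have hex : ∃ n : ℕ, R < L ^ n * r := by
      obtain ⟨n, hn⟩ := pow_unbounded_of_one_lt R (show (1 : ℤ) < L by omega)
      exact ⟨n, by nlinarith [pow_pos (show (0 : ℤ) < L by omega) n]⟩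
    classical
    have h0 : Nat.find hex ≠ 0 := by
      intro h0
      have h1 := Nat.find_spec hex
      rw [h0, pow_zero] at h1
      omega
    obtain ⟨k, hk⟩ := Nat.exists_eq_succ_of_ne_zero h0
    refine ⟨k, ?_, ?_⟩
    · have := Nat.find_min hex (m := k) (by omega)
      push Not at this
      exact this
    · have := Nat.find_spec hex
      rwa [hk] at this
  refine (h n hn1).trans ?_
  have h5 : a ^ (n + 1) = ((L : ℝ) ^ (n + 1)) ^ (-α) := by
    nth_rw 1 [← h4]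
    rw [← Real.rpow_natCast, ← Real.rpow_natCast, ← Real.rpow_mul hL0.le, ← Real.rpow_mul hL0.le,
      mul_comm]
  have h6 : a ^ n = a⁻¹ * a ^ (n + 1) := by
    rw [pow_succ, mul_comm (a ^ n), inv_mul_cancel_left₀ ha0.ne']
  rw [h6, h5, Real.rpow_neg (by positivity), ← Real.inv_rpow (by positivity)]
  refine mul_le_mul_of_nonneg_left (Real.rpow_le_rpow (by positivity) ?_ hα0.le) (by positivity)
  rw [inv_le_comm₀ (by positivity) (by positivity), inv_div, div_le_iff₀ (by linarith)]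
  exact_mod_cast hn2.le

end Vale.Agent.P167.FKA
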