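import Vale.Agent.P167.FKA.Dual
import Vale.Agent.P167.H166.Clu

/-!
# P167, general `q`, block GQ2: exploration of the crossing clusters
-/

namespace Vale.Agent.P167.FKA

open Finset Filter Topology MeasureTheory Vale.Agent.P167.FK
open Vale.Agent.P145.FB (PStep PConn step_of_corners)
open Vale.Agent.P167.H166 (cl CC CC_finite PStep_mono rtg_mono cl_eq cl_parity)
open Relation

/-- Comparison of boundary conditions in terms of connectivity. -/
def F_comp2 : Prop := ∀ (Q : ℝ) (D : Finset (ℤ × ℤ)) (η η' : Cfg) (F : Cfg → ℝ), 1 ≤ Q → Good η →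
  Good η' → (∀ S ⊆ D, ∀ a ∈ D, a ∉ S → PC (cf D η S) (pa a) (pb a) →
    PC (cf D η' S) (pa a) (pb a)) → IncF F → Loc D F → Ex Q D η F ≤ Ex Q D η' F

/-- The open squares of `D`. -/
def Op (D : Finset (ℤ × ℤ)) (ω : Cfg) : Set (ℤ × ℤ) := {v | v ∈ D ∧ ω v = true}

/-- `u` is a corner of `v`. -/
def Cor (v u : ℤ × ℤ) : Prop := (u.1 = v.1 ∨ u.1 = v.1 + 1) ∧ (u.2 = v.2 ∨ u.2 = v.2 + 1)

theorem cor_of_step {F : Set (ℤ × ℤ)} {u w : ℤ × ℤ} (h : PStep F u w) :
    Cor (min u.1 w.1, min u.2 w.2) u ∧ Cor (min u.1 w.1, min u.2 w.2) w := by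
  obtain ⟨h1, h2, -⟩ := h
  simp only [Cor]
  omega

theorem step_of_cor {F : Set (ℤ × ℤ)} {v u w : ℤ × ℤ} (hv : v ∈ F) (hu : Cor v u) (hw : Cor v w)
    (h1 : Even (u.1 + u.2)) (h2 : Even (w.1 + w.2)) (hne : u ≠ w) : PStep F u w := by
  rw [Int.even_iff] at h1 h2
  exact step_of_corners (m := v.1) (n := v.2) (e := 0) hv hu.1 hu.2 hw.1 hw.2 h1 h2 hne

theorem even_step {F : Set (ℤ × ℤ)} {u v : ℤ × ℤ} (h : PStep F u v) :
    Even (u.1 + u.2) ↔ Even (v.1 + v.2) := by
  obtain ⟨h1, h2, -⟩ := h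
  rw [Int.even_iff, Int.even_iff]
  omega

open Classical in
/-- The squares of `D` with a corner in `K`. -/
noncomputable def nb (D : Finset (ℤ × ℤ)) (K : Set (ℤ × ℤ)) : Finset (ℤ × ℤ) :=
  D.filter (fun v => ∃ u ∈ K, Cor v u)

theorem mem_nb {D : Finset (ℤ × ℤ)} {K : Set (ℤ × ℤ)} {v : ℤ × ℤ} :
    v ∈ nb D K ↔ v ∈ D ∧ ∃ u ∈ K, Cor v u := by
  classical
  simp only [nb, Finset.mem_filter]

/-- The rest of the domain after the exploration. -/
noncomputable def rest (D : Finset (ℤ × ℤ)) (K : Set (ℤ × ℤ)) : Finset (ℤ × ℤ) := D \ nb D K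

theorem mem_rest {D : Finset (ℤ × ℤ)} {K : Set (ℤ × ℤ)} {v : ℤ × ℤ} :
    v ∈ rest D K ↔ v ∈ D ∧ ∀ u ∈ K, ¬ Cor v u := by
  simp only [rest, Finset.mem_sdiff, mem_nb, not_and, not_exists]
  constructor
  · rintro ⟨h1, h2⟩
    exact ⟨h1, h2 h1⟩
  · rintro ⟨h1, h2⟩
    exact ⟨h1, fun _ => h2⟩

theorem cl_even {F : Set (ℤ × ℤ)} {s t : ℤ × ℤ} (hs : Even (s.1 + s.2)) (h : t ∈ cl F s) :
    Even (t.1 + t.2) := by
  have := cl_parity h
  rw [Int.even_iff] at *
  omega

/-- The cluster depends only on the squares with a corner in it. -/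
theorem cl_congr {D : Finset (ℤ × ℤ)} {s : ℤ × ℤ} {ω ω' : Cfg}
    (h : ∀ v, v ∉ rest D (cl (Op D ω) s) → ω v = ω' v) : cl (Op D ω') s = cl (Op D ω) s := by
  have key : ∀ v, v ∈ D → (∃ u ∈ cl (Op D ω) s, Cor v u) → ω v = ω' v := by
    intro v hv ⟨u, hu, hc⟩
    refine h v fun h2 => ?_
    rw [mem_rest] at h2
    exact h2.2 u hu hc
  apply Set.Subset.antisymm
  · intro t ht
    have ht' : ReflTransGen (PStep (Op D ω')) s t := ht
    clear ht
    induction ht' with
    | refl => exact ReflTransGen.refl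
    | @tail a b _ hab ih =>
      have ih' : a ∈ cl (Op D ω) s := ih
      have h3 := hab.2.2
      have h4 := key _ h3.1 ⟨a, ih', (cor_of_step hab).1⟩
      exact ReflTransGen.tail ih' (show PStep (Op D ω) a b from
        ⟨hab.1, hab.2.1, h3.1, by rw [h4]; exact h3.2⟩)
  · intro t ht
    have ht' : ReflTransGen (PStep (Op D ω)) s t := ht
    clear ht
    induction ht' with
    | refl => exact ReflTransGen.refl
    | @tail a b hsa hab ih =>
      have h3 := hab.2.2
      have h4 := key _ h3.1 ⟨a, hsa, (cor_of_step hab).1⟩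
      exact ReflTransGen.tail ih (show PStep (Op D ω') a b from
        ⟨hab.1, hab.2.1, h3.1, by rw [← h4]; exact h3.2⟩)

/-- The clusters outside of `K` do not change if the squares with a corner in `K` are removed. -/
theorem cl_rest {D : Finset (ℤ × ℤ)} {s u : ℤ × ℤ} {ω : Cfg} (hse : Even (s.1 + s.2))
    (hue : Even (u.1 + u.2)) (hu : u ∉ cl (Op D ω) s) :
    cl (Op (rest D (cl (Op D ω) s)) ω) u = cl (Op D ω) u := by
  apply Set.Subset.antisymm
  · intro t ht
    exact rtg_mono (F := Op (rest D (cl (Op D ω) s)) ω) (F' := Op D ω)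
      (fun v hv => ⟨(mem_rest.1 hv.1).1, hv.2⟩) ht
  · intro t ht
    have ht' : ReflTransGen (PStep (Op D ω)) u t := ht
    clear ht
    have hno : ∀ w, ReflTransGen (PStep (Op D ω)) u w → w ∉ cl (Op D ω) s := by
      intro w hw hws
      have h1 : w ∈ cl (Op D ω) u := hw
      have h2 := cl_eq h1
      have h3 := cl_eq hws
      apply hu
      rw [← h3, h2]
      exact ReflTransGen.refl
    induction ht' with
    | refl => exact ReflTransGen.refl
    | @tail a b hua hab ih =>
      refine ReflTransGen.tail ih ⟨hab.1, hab.2.1, ?_⟩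
      have h3 := hab.2.2
      refine ⟨mem_rest.2 ⟨h3.1, ?_⟩, h3.2⟩
      intro w hw hc
      have h4 := hno a hua
      have h5 := cor_of_step hab
      by_cases hne : w = a
      · exact h4 (hne ▸ hw)
      · exact h4 (ReflTransGen.tail hw (step_of_cor h3 hc h5.1 (cl_even hse hw)
          (cl_even hue (show a ∈ cl (Op D ω) u from hua)) hne))

/-- Sites of `K` are isolated after the exploration. -/
theorem cl_iso {D : Finset (ℤ × ℤ)} {s u : ℤ × ℤ} {ω : Cfg} (hu : u ∈ cl (Op D ω) s) :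
    cl (Op (rest D (cl (Op D ω) s)) ω) u = {u} := by
  apply Set.Subset.antisymm
  · intro t ht
    have ht' : ReflTransGen (PStep (Op (rest D (cl (Op D ω) s)) ω)) u t := ht
    rcases ReflTransGen.cases_head ht' with h | ⟨w, h1, -⟩
    · exact h.symm
    · exfalso
      have h2 := h1.2.2
      exact (mem_rest.1 h2.1).2 u hu (cor_of_step h1).1
  · rintro t rfl
    exact ReflTransGen.refl

/-- Number of the crossing clusters of the open squares of `D`. -/
noncomputable def kc (x : ℤ × ℤ) (r R : ℤ) (D : Finset (ℤ × ℤ)) (ω : Cfg) : ℕ :=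
  (CC x r R 0 (Op D ω)).ncard

/-- `K` crosses. -/
def Crs (x : ℤ × ℤ) (R : ℤ) (K : Set (ℤ × ℤ)) : Prop := ∃ t ∈ K, R - 1 ≤ nm (t - x)

theorem CC_rest {x : ℤ × ℤ} {r R : ℤ} (hrR : r + 2 < R) {D : Finset (ℤ × ℤ)} {s : ℤ × ℤ}
    {ω : Cfg} (hse : Even (s.1 + s.2)) (hs : nm (s - x) ≤ r + 1) :
    CC x r R 0 (Op (rest D (cl (Op D ω) s)) ω) = CC x r R 0 (Op D ω) \ {cl (Op D ω) s} := by
  ext C
  constructor
  · rintro ⟨u, h1, h2, rfl, t, ht, h3⟩
    have hue : Even (u.1 + u.2) := by rw [Int.even_iff]; exact h1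
    by_cases hu : u ∈ cl (Op D ω) s
    · rw [cl_iso hu] at ht
      rw [Set.mem_singleton_iff] at ht
      rw [ht] at h3
      omega
    · rw [cl_rest hse hue hu] at ht ⊢
      refine ⟨⟨u, h1, h2, rfl, t, ht, h3⟩, ?_⟩
      intro h4
      rw [Set.mem_singleton_iff] at h4
      apply hu
      rw [← h4]
      exact ReflTransGen.refl
  · rintro ⟨⟨u, h1, h2, rfl, t, ht, h3⟩, h4⟩
    have hue : Even (u.1 + u.2) := by rw [Int.even_iff]; exact h1
    by_cases hu : u ∈ cl (Op D ω) s
    · exact absurd (cl_eq hu) h4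
    · rw [← cl_rest hse hue hu] at ht ⊢
      exact ⟨u, h1, h2, rfl, t, ht, h3⟩

open Classical in
theorem kc_rest {x : ℤ × ℤ} {r R : ℤ} (hrR : r + 2 < R) {D : Finset (ℤ × ℤ)} {s : ℤ × ℤ}
    {ω : Cfg} (hse : Even (s.1 + s.2)) (hs : nm (s - x) ≤ r + 1) :
    kc x r R D ω = kc x r R (rest D (cl (Op D ω) s)) ω +
      if Crs x R (cl (Op D ω) s) then 1 else 0 := by
  unfold kc
  rw [CC_rest hrR hse hs]
  have hfin := CC_finite x r R 0 (Op D ω)
  by_cases h : Crs x R (cl (Op D ω) s)
  · rw [if_pos h]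
    have hm : cl (Op D ω) s ∈ CC x r R 0 (Op D ω) := by
      obtain ⟨t, ht, h1⟩ := h
      exact ⟨s, by rw [Int.even_iff] at hse; exact hse, hs, rfl, t, ht, h1⟩
    exact (Set.ncard_sdiff_singleton_add_one hm hfin).symm
  · rw [if_neg h, add_zero]
    have hm : cl (Op D ω) s ∉ CC x r R 0 (Op D ω) := by
      rintro ⟨u, -, -, h2, t, ht, h1⟩
      exact h ⟨t, ht, h1⟩
    rw [Set.sdiff_singleton_eq_self hm]

theorem kc_congr {x : ℤ × ℤ} {r R : ℤ} {D : Finset (ℤ × ℤ)} {ω ω' : Cfg}
    (h : ∀ v ∈ D, ω v = ω' v) : kc x r R D ω = kc x r R D ω' := by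
  unfold kc
  have : Op D ω = Op D ω' := by
    ext v
    simp only [Op, Set.mem_ofPred_eq]
    constructor
    · rintro ⟨h1, h2⟩; exact ⟨h1, by rw [← h v h1]; exact h2⟩
    · rintro ⟨h1, h2⟩; exact ⟨h1, by rw [h v h1]; exact h2⟩
  rw [this]

/-- Every explored open square is separated from the domain `D'`. -/
def Sep (B : Set (ℤ × ℤ)) (D' : Finset (ℤ × ℤ)) (η : Cfg) : Prop :=
  ∀ v ∈ B, v ∉ D' → η v = true → ∀ a ∈ D', ∀ u : ℤ × ℤ, Even (u.1 + u.2) → Cor v u → ¬ Cor a u

theorem Sep.step {B : Set (ℤ × ℤ)} {D' : Finset (ℤ × ℤ)} {η : Cfg} (h : Sep B D' η) {ω : Cfg}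
    (hω : ∀ v, v ∉ D' → ω v = η v) {s : ℤ × ℤ} (hse : Even (s.1 + s.2)) :
    Sep B (rest D' (cl (Op D' ω) s)) ω := by
  intro v hv hv' hvo a ha u hue hc hca
  rw [mem_rest] at ha
  by_cases hvD : v ∈ D'
  · rw [mem_rest] at hv'
    push Not at hv'
    obtain ⟨w, hw, hcw⟩ := hv' hvD
    apply ha.2 u ?_ hca
    by_cases hne : w = u
    · exact hne ▸ hw
    · exact ReflTransGen.tail hw (step_of_cor ⟨hvD, hvo⟩ hcw hc (cl_even hse hw) hue hne)
  · exact h v hv hvD (by rw [← hω v hvD]; exact hvo) a ha.1 u hue hc hca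

/-- The exploration decomposition. -/
theorem Ex_split {Q : ℝ} {D : Finset (ℤ × ℤ)} {η : Cfg} {α : Type*} [DecidableEq α]
    (k : Cfg → α) (F : Cfg → ℝ) :
    Ex Q D η F = ∑ K ∈ D.powerset.image (fun S => k (cf D η S)),
      Ex Q D η (fun ω => {ω | k ω = K}.indicator 1 ω * F ω) := by
  rw [← Ex_sum]
  refine Ex_congr fun S hS => ?_
  rw [Finset.sum_eq_single (k (cf D η S))]
  · rw [Set.indicator_of_mem (show cf D η S ∈ {ω | k ω = k (cf D η S)} from rfl)]
    simp
  · intro K _ hK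
    rw [Set.indicator_of_notMem (show cf D η S ∉ {ω | k ω = K} from fun h => hK h.symm), zero_mul]
  · intro h
    exact absurd (Finset.mem_image_of_mem _ (Finset.mem_powerset.2 hS)) h

theorem ind_cl {D : Finset (ℤ × ℤ)} {s : ℤ × ℤ} (K : Set (ℤ × ℤ)) :
    Ind (rest D K) ({ω | cl (Op D ω) s = K}.indicator 1) := by
  intro ω ω' h
  have key : ∀ ω ω' : Cfg, (∀ v, v ∉ rest D K → ω v = ω' v) → cl (Op D ω) s = K →
      cl (Op D ω') s = K := by
    intro ω ω' h h1
    have := cl_congr (D := D) (s := s) (ω := ω) (ω' := ω') (by rw [h1]; exact h)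
    rw [this, h1]
  by_cases h1 : cl (Op D ω) s = K
  · have h2 := key ω ω' h h1
    rw [Set.indicator_of_mem (show ω ∈ {ω | cl (Op D ω) s = K} from h1),
      Set.indicator_of_mem (show ω' ∈ {ω | cl (Op D ω) s = K} from h2)]
    rfl
  · have h2 : ¬ cl (Op D ω') s = K := fun h2 => h1 (key ω' ω (fun v hv => (h v hv).symm) h2)
    rw [Set.indicator_of_notMem (show ω ∉ {ω | cl (Op D ω) s = K} from h1),
      Set.indicator_of_notMem (show ω' ∉ {ω | cl (Op D ω) s = K} from h2)]

theorem kc_zero {x : ℤ × ℤ} {r R : ℤ} (hrR : r + 2 < R) {D : Finset (ℤ × ℤ)}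
    (h : ∀ s : ℤ × ℤ, Even (s.1 + s.2) → nm (s - x) ≤ r + 1 → ∀ v ∈ D, ¬ Cor v s) (ω : Cfg) :
    kc x r R D ω = 0 := by
  unfold kc
  rw [Set.ncard_eq_zero (CC_finite x r R 0 (Op D ω)), Set.eq_empty_iff_forall_notMem]
  rintro C ⟨u, h1, h2, rfl, t, ht, h3⟩
  have ht' : ReflTransGen (PStep (Op D ω)) u t := ht
  rcases ReflTransGen.cases_head ht' with h4 | ⟨w, h4, -⟩
  · rw [← h4] at h3
    omega
  · exact h u (by rw [Int.even_iff]; exact h1) h2 _ h4.2.2.1 (cor_of_step h4).1

/-- Exponential moment of the number of the crossing clusters. -/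
theorem kc_exp {Q : ℝ} (hQ : 0 < Q) (hm : F_markov) (hg : F_good) {B : Set (ℤ × ℤ)}
    {x : ℤ × ℤ} {r R : ℤ} (hrR : r + 2 < R) {a y β : ℝ} (hy : 1 ≤ y) (hya : y * a < 1)
    (hβ : β * (1 - y * a) = y - 1)
    (hA : ∀ (D : Finset (ℤ × ℤ)) (η : Cfg), (D : Set (ℤ × ℤ)) ⊆ B → Good η → Sep B D η →
      Pr Q D η {ω | 1 ≤ kc x r R D ω} ≤ a) :
    ∀ (n : ℕ) (D : Finset (ℤ × ℤ)) (η : Cfg), D.card ≤ n → (D : Set (ℤ × ℤ)) ⊆ B → Good η →
      Sep B D η → Ex Q D η (fun ω => y ^ kc x r R D ω) ≤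
        1 + β * Pr Q D η {ω | 1 ≤ kc x r R D ω} := by
  classical
  have hβ0 : 0 ≤ β := by
    by_contra h
    push Not at h
    nlinarith
  intro n
  induction n with
  | zero =>
    intro D η hn _ _ _
    have hD : D = ∅ := Finset.card_eq_zero.1 (Nat.le_zero.1 hn)
    subst hD
    have h0 := kc_zero (x := x) (D := ∅) hrR (fun _ _ _ v hv => absurd hv (Finset.notMem_empty v))
    simp only [h0, pow_zero]
    rw [Ex_const hQ]
    have := mul_nonneg hβ0 (Pr_nonneg (D := ∅) (η := η) hQ {ω | 1 ≤ kc x r R ∅ ω})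
    simp only [h0] at *
    linarith
  | succ n ih =>
    intro D η hn hDB hη hsep
    by_cases hex : ∀ s : ℤ × ℤ, Even (s.1 + s.2) → nm (s - x) ≤ r + 1 → ∀ v ∈ D, ¬ Cor v s
    · have h0 := kc_zero (x := x) (D := D) hrR hex
      have := mul_nonneg hβ0 (Pr_nonneg (D := D) (η := η) hQ {ω | 1 ≤ kc x r R D ω})
      simp only [h0, pow_zero] at *
      rw [Ex_const hQ]
      linarith
    · push Not at hex
      obtain ⟨s, hse, hs, v0, hv0, hc0⟩ := hex
      set k : Cfg → Set (ℤ × ℤ) := fun ω => cl (Op D ω) s with hk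
      have e1 : (1 : ℝ) = Ex Q D η (fun _ => 1) := (Ex_const hQ 1).symm
      rw [e1]
      unfold Pr
      rw [Ex_split (α := Set (ℤ × ℤ)) k (fun ω => y ^ kc x r R D ω),
        Ex_split (α := Set (ℤ × ℤ)) k (fun _ => (1 : ℝ)),
        Ex_split (α := Set (ℤ × ℤ)) k ({ω | 1 ≤ kc x r R D ω}.indicator 1), Finset.mul_sum,
        ← Finset.sum_add_distrib]
      refine Finset.sum_le_sum fun K hK => ?_
      rw [Finset.mem_image] at hK
      obtain ⟨S0, hS0, hKS⟩ := hK
      have hsK : s ∈ K := by rw [← hKS]; exact ReflTransGen.refl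
      set D' := rest D K with hD'
      have hsub : D' ⊆ D := by
        intro v hv
        exact (mem_rest.1 hv).1
      have hcard : D'.card ≤ n := by
        have hlt : D'.card < D.card := by
          refine Finset.card_lt_card ⟨hsub, fun h => ?_⟩
          exact (mem_rest.1 (h hv0)).2 s hsK hc0
        omega
      set I : Cfg → ℝ := {ω | k ω = K}.indicator 1 with hI
      have hInd : Ind D' I := ind_cl K
      have hI0 : ∀ ω, 0 ≤ I ω := ind_nonneg _
      -- pointwise identities on the event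
      have hkc : ∀ ω, k ω = K → kc x r R D ω = kc x r R D' ω + if Crs x R K then 1 else 0 := by
        intro ω hω
        have h1 := kc_rest hrR (D := D) (ω := ω) hse hs
        have h2 : cl (Op D ω) s = K := hω
        rw [h2] at h1
        exact h1
      have hih : ∀ S, S ⊆ D → k (cf D η S) = K →
          Ex Q D' (cf D η S) (fun ω => y ^ kc x r R D' ω) ≤
            1 + β * Pr Q D' (cf D η S) {ω | 1 ≤ kc x r R D' ω} ∧
          Pr Q D' (cf D η S) {ω | 1 ≤ kc x r R D' ω} ≤ a := by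
        intro S hS hkS
        have hgood := hg.1 D η S hη
        have hsep' : Sep B D' (cf D η S) := by
          have h1 := hsep.step (ω := cf D η S) (fun v hv => cf_out hv) hse
          have h2 : cl (Op D (cf D η S)) s = K := hkS
          rw [h2] at h1
          exact h1
        have hDB' : (D' : Set (ℤ × ℤ)) ⊆ B := (Finset.coe_subset.2 hsub).trans hDB
        exact ⟨ih D' _ hcard hDB' hgood hsep', hA D' _ hDB' hgood hsep'⟩
      have hIz : ∀ ω, k ω ≠ K → I ω = 0 := fun ω h =>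
        Set.indicator_of_notMem (show ω ∉ {ω | k ω = K} from h) _
      by_cases hcr : Crs x R K
      · have h1 : Ex Q D η (fun ω => I ω * y ^ kc x r R D ω) =
            Ex Q D η (fun ω => I ω * (y * y ^ kc x r R D' ω)) := by
          refine Ex_congr fun S _ => ?_
          by_cases h : k (cf D η S) = K
          · rw [hkc _ h, if_pos hcr, pow_succ, mul_comm (y ^ kc x r R D' (cf D η S))]
          · rw [hIz _ h, zero_mul, zero_mul]
        have h2 : Ex Q D η (fun ω => I ω * {ω | 1 ≤ kc x r R D ω}.indicator 1 ω) =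
            Ex Q D η (fun ω => I ω * 1) := by
          refine Ex_congr fun S _ => ?_
          by_cases h : k (cf D η S) = K
          · rw [Set.indicator_of_mem]
            · rfl
            · show 1 ≤ kc x r R D (cf D η S)
              rw [hkc _ h, if_pos hcr]
              omega
          · rw [hIz _ h, zero_mul, zero_mul]
        rw [h1, h2, markov hm hQ hsub hη hInd]
        rw [← Ex_mul_left, ← Ex_add]
        refine Ex_mono hQ fun S hS => ?_
        by_cases h : k (cf D η S) = K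
        · obtain ⟨h3, h4⟩ := hih S hS h
          have h5 : Ex Q D' (cf D η S) (fun ω => y * y ^ kc x r R D' ω) ≤ 1 + β := by
            rw [Ex_mul_left]
            have h6 := mul_le_mul_of_nonneg_left h3 (show 0 ≤ y by linarith)
            have h7 := mul_le_mul_of_nonneg_left h4 (mul_nonneg (show 0 ≤ y by linarith) hβ0)
            nlinarith
          have := mul_le_mul_of_nonneg_left h5 (hI0 (cf D η S))
          linarith
        · rw [hIz _ h]
          simp
      · have h1 : Ex Q D η (fun ω => I ω * y ^ kc x r R D ω) =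
            Ex Q D η (fun ω => I ω * y ^ kc x r R D' ω) := by
          refine Ex_congr fun S _ => ?_
          by_cases h : k (cf D η S) = K
          · rw [hkc _ h, if_neg hcr, add_zero]
          · rw [hIz _ h, zero_mul, zero_mul]
        have h2 : Ex Q D η (fun ω => I ω * {ω | 1 ≤ kc x r R D ω}.indicator 1 ω) =
            Ex Q D η (fun ω => I ω * {ω | 1 ≤ kc x r R D' ω}.indicator 1 ω) := by
          refine Ex_congr fun S _ => ?_
          by_cases h : k (cf D η S) = K
          · congr 1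
            have h6 := hkc _ h
            rw [if_neg hcr, add_zero] at h6
            by_cases h7 : 1 ≤ kc x r R D' (cf D η S)
            · rw [Set.indicator_of_mem (show cf D η S ∈ {ω | 1 ≤ kc x r R D' ω} from h7),
                Set.indicator_of_mem]
              show 1 ≤ kc x r R D (cf D η S)
              omega
            · rw [Set.indicator_of_notMem (show cf D η S ∉ {ω | 1 ≤ kc x r R D' ω} from h7),
                Set.indicator_of_notMem]
              show ¬ 1 ≤ kc x r R D (cf D η S)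
              omega
          · rw [hIz _ h, zero_mul, zero_mul]
        have h5 := markov hm hQ hsub hη hInd (F := fun ω => y ^ kc x r R D' ω)
        have h6 := markov hm hQ hsub hη hInd (F := {ω | 1 ≤ kc x r R D' ω}.indicator 1)
        rw [h1, h2, h5, h6]
        rw [← Ex_mul_left, ← Ex_add]
        refine Ex_mono hQ fun S hS => ?_
        by_cases h : k (cf D η S) = K
        · obtain ⟨h3, h4⟩ := hih S hS h
          have := mul_le_mul_of_nonneg_left h3 (hI0 (cf D η S))
          refine this.trans (le_of_eq ?_)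
          show I (cf D η S) * (1 + β * Pr Q D' (cf D η S) {ω | 1 ≤ kc x r R D' ω}) =
            I (cf D η S) * 1 + β * (I (cf D η S) * Pr Q D' (cf D η S) {ω | 1 ≤ kc x r R D' ω})
          ring
        · rw [hIz _ h]
          simp

end Vale.Agent.P167.FKA
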