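import Vale.Agent.P167.FKA.Out
import Vale.Agent.P167.Top.PlaneW
import Vale.Agent.P167.Top.Plane

/-!
# P167, general `q`, block GQ2: exponential moment of the number of the crossing loops, uniformly in
the boundary conditions
-/

namespace Vale.Agent.P167.FKA

open Finset Filter Topology MeasureTheory Vale.Agent.P167.FK
open Vale.Agent.P145.FB (PStep PConn step_of_corners)
open Vale.Agent.P167.H166 (cl CC CC_finite PStep_mono rtg_mono cl_eq cl_parity bxx mem_bxx Sb loops_le)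
open Vale.Agent.P167.H259 (f_fkg f_comp f_comp2)
open Relation

/-- Number of the crossing clusters of one kind. -/
noncomputable def kap (x : ℤ × ℤ) (r R e : ℤ) (b : Bool) (ω : Cfg) : ℕ :=
  (CC x r R e (Sb x R ω b)).ncard

theorem Sb_congr {x : ℤ × ℤ} {R : ℤ} {ω ω' : Cfg} (h : ∀ v, nm (v - x) ≤ R → ω v = ω' v)
    (b : Bool) : Sb x R ω b = Sb x R ω' b := by
  unfold Sb
  refine Finset.filter_congr fun v hv => ?_
  rw [h v (mem_bxx.1 hv)]

theorem loc_kc {x : ℤ × ℤ} {r R : ℤ} {D : Finset (ℤ × ℤ)} (g : ℕ → ℝ) :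
    Loc D (fun ω => g (kc x r R D ω)) := fun ω ω' h => by
  show g _ = g _
  rw [kc_congr h]

theorem loc_pos {x : ℤ × ℤ} {r R : ℤ} {D : Finset (ℤ × ℤ)} :
    Loc D ({ω | 1 ≤ kc x r R D ω}.indicator 1) := by
  have h : ({ω | 1 ≤ kc x r R D ω}.indicator (1 : Cfg → ℝ)) =
      fun ω => (fun k : ℕ => if 1 ≤ k then (1 : ℝ) else 0) (kc x r R D ω) := by
    funext ω
    by_cases h1 : 1 ≤ kc x r R D ω
    · rw [Set.indicator_of_mem (show ω ∈ {ω | 1 ≤ kc x r R D ω} from h1)]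
      simp [h1]
    · rw [Set.indicator_of_notMem (show ω ∉ {ω | 1 ≤ kc x r R D ω} from h1)]
      simp only [h1, if_false]
  rw [h]
  exact loc_kc (fun k : ℕ => if 1 ≤ k then (1 : ℝ) else 0)

theorem incF_pos {x : ℤ × ℤ} {r R : ℤ} {D : Finset (ℤ × ℤ)} :
    IncF ({ω | 1 ≤ kc x r R D ω}.indicator 1) :=
  IncS.incF (A := {ω | 1 ≤ kc x r R D ω}) fun _ _ h hk => kc_pos_mono (Finset.Subset.refl _) h hk

/-- In a separated domain the probability of a crossing is at most the probability for the wired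
box. -/
theorem pr_wired {Q : ℝ} (hQ : 1 ≤ Q) (hm : F_markov) (hg : F_good) {x : ℤ × ℤ} {r R : ℤ}
    {D : Finset (ℤ × ℤ)} {η : Cfg} (hD : D ⊆ bxx x R) (hη : Good η)
    (hsep : Sep (bxx x R : Finset (ℤ × ℤ)) D η) :
    Pr Q D η {ω | 1 ≤ kc x r R D ω} ≤
      Pr Q (bxx x R) eta1 {ω | 1 ≤ kc x r R (bxx x R) ω} := by
  have hQ0 : 0 < Q := by linarith
  have hη' : Good (cf (bxx x R) eta1 ∅) := hg.1 _ _ _ hg.2.2
  have h1 : Pr Q D η {ω | 1 ≤ kc x r R D ω} ≤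
      Pr Q D (cf (bxx x R) eta1 ∅) {ω | 1 ≤ kc x r R D ω} := by
    refine f_comp2 Q D η _ _ hQ hη hη' (fun S _ a ha _ h => ?_) incF_pos loc_pos
    exact sep_conn hD hsep S (cor_pa a).2 ⟨a, ha, (cor_pa a).1⟩ ⟨a, ha, (cor_pb a).1⟩ h
  have h2 : Pr Q D (cf (bxx x R) eta1 ∅) {ω | 1 ≤ kc x r R D ω} ≤
      Pr Q (bxx x R) eta1 {ω | 1 ≤ kc x r R D ω} := by
    have h3 := hm Q D (bxx x R) eta1 ({ω | 1 ≤ kc x r R D ω}.indicator 1) hQ0 hD hg.2.2
    unfold Pr
    rw [h3, ← Ex_const (Q := Q) (D := bxx x R) (η := eta1) hQ0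
      (Ex Q D (cf (bxx x R) eta1 ∅) ({ω | 1 ≤ kc x r R D ω}.indicator 1))]
    refine Ex_mono hQ0 fun S _ => ?_
    refine f_comp Q D _ _ _ hQ hη' (hg.1 _ _ _ hg.2.2) (fun v hv => ?_) incF_pos
    by_cases hvB : v ∈ bxx x R
    · simp [cf, hvB] at hv
    · rw [cf_out hvB]; rfl
  exact h1.trans (h2.trans (Pr_mono hQ0 fun ω hω => kc_pos_mono hD (fun _ h => h) hω))

/-- Exponential moment of the number of the primal crossing clusters. -/
theorem kap_exp_primal {Q : ℝ} (hQ : 1 ≤ Q) (hm : F_markov) (hg : F_good) {x : ℤ × ℤ} {r R : ℤ}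
    (hrR : r + 2 < R) (hA : Pr Q (bxx x R) eta1 {ω | ArmPx x (r + 1) (R - 1) ω} ≤ 1 / 2)
    {η : Cfg} (hη : Good η) :
    Ex Q (bxx x R) η (fun ω => (3 / 2 : ℝ) ^ kc x r R (bxx x R) ω) ≤ 2 := by
  have hQ0 : 0 < Q := by linarith
  have hA' : ∀ (D : Finset (ℤ × ℤ)) (η : Cfg), (D : Set (ℤ × ℤ)) ⊆ (bxx x R : Finset (ℤ × ℤ)) →
      Good η → Sep (bxx x R : Finset (ℤ × ℤ)) D η →
      Pr Q D η {ω | 1 ≤ kc x r R D ω} ≤ 1 / 2 := by
    intro D η hD hη hsep
    refine (pr_wired hQ hm hg (Finset.coe_subset.1 hD) hη hsep).trans (le_trans ?_ hA)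
    exact Pr_mono hQ0 fun ω hω => arm_of_kc hrR hω
  have h := kc_exp hQ0 hm hg hrR (a := 1 / 2) (y := 3 / 2) (β := 2) (by norm_num) (by norm_num)
    (by norm_num) hA' _ (bxx x R) η le_rfl (Set.Subset.refl _) hη
    (fun v hv hv' => absurd (Finset.mem_coe.1 hv) hv')
  have h2 := hA' (bxx x R) η (Set.Subset.refl _) hη
    (fun v hv hv' => absurd (Finset.mem_coe.1 hv) hv')
  linarith

theorem kap_eq {x : ℤ × ℤ} {r R : ℤ} {ω : Cfg} :
    kap x r R 0 true ω = kc x r R (bxx x R) ω := by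
  unfold kap kc
  congr 2
  ext v
  simp [Sb, Op]

theorem cl_sh {F F' : Set (ℤ × ℤ)} (h1 : ∀ v ∈ F, sh v ∈ F') (h2 : ∀ v ∈ F', shi v ∈ F)
    (s : ℤ × ℤ) : cl F' (sh s) = sh '' cl F s := by
  apply Set.Subset.antisymm
  · intro t ht
    have ht' : ReflTransGen (PStep F') (sh s) t := ht
    refine ⟨shi t, ?_, sh_shi t⟩
    have key : ∀ u v, ReflTransGen (PStep F') u v → ReflTransGen (PStep F) (shi u) (shi v) := by
      intro u v h
      induction h with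
      | refl => exact ReflTransGen.refl
      | tail _ h ih => exact ih.tail (step_shi h2 h)
    have := key _ _ ht'
    rw [shi_sh] at this
    exact this
  · rintro _ ⟨t, ht, rfl⟩
    have ht' : ReflTransGen (PStep F) s t := ht
    have key : ∀ u v, ReflTransGen (PStep F) u v → ReflTransGen (PStep F') (sh u) (sh v) := by
      intro u v h
      induction h with
      | refl => exact ReflTransGen.refl
      | tail _ h ih => exact ih.tail (step_sh h1 h)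
    exact key _ _ ht'

theorem sh_inj : Function.Injective sh := by
  intro u v h
  rw [← shi_sh u, ← shi_sh v, h]

theorem CC_sh {F F' : Set (ℤ × ℤ)} (h1 : ∀ v ∈ F, sh v ∈ F') (h2 : ∀ v ∈ F', shi v ∈ F)
    (x : ℤ × ℤ) (r R : ℤ) : CC (sh x) r R 0 F' = Set.image sh '' CC x r R 1 F := by
  ext C
  constructor
  · rintro ⟨s, a1, a2, rfl, t, a3, a4⟩
    have e : cl F' s = sh '' cl F (shi s) := by
      rw [← cl_sh h1 h2, sh_shi]
    rw [e] at a3 ⊢
    obtain ⟨t', a5, rfl⟩ := a3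
    refine ⟨cl F (shi s), ⟨shi s, by simp only [shi]; omega, by rw [nm_shi]; exact a2, rfl, t', a5,
      by rw [nm_sh] at a4; exact a4⟩, rfl⟩
  · rintro ⟨C', ⟨s, a1, a2, rfl, t, a3, a4⟩, rfl⟩
    refine ⟨sh s, by simp only [sh]; omega, by rw [nm_sh]; exact a2, (cl_sh h1 h2 s).symm,
      sh t, Set.mem_image_of_mem _ a3, by rw [nm_sh]; exact a4⟩

theorem mem_bxx_sh {x : ℤ × ℤ} {R : ℤ} {v : ℤ × ℤ} : v ∈ bxx (sh x) R ↔ shi v ∈ bxx x R := by
  simp only [mem_bxx, nm_shi]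

theorem kap_dual {x : ℤ × ℤ} {r R : ℤ} {ω : Cfg} :
    kap x r R 1 false ω = kc (sh x) r R (bxx (sh x) R) (du ω) := by
  unfold kap kc
  rw [CC_sh (F := (Sb x R ω false : Finset (ℤ × ℤ))) (F' := Op (bxx (sh x) R) (du ω)),
    Set.ncard_image_of_injective _ sh_inj.image_injective]
  · intro v hv
    rw [Finset.mem_coe, Sb, Finset.mem_filter] at hv
    refine ⟨?_, ?_⟩
    · rw [mem_bxx_sh, shi_sh]; exact hv.1
    · simp only [du, sh, add_sub_cancel_right]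
      rw [hv.2]
      rfl
  · rintro v ⟨hv1, hv2⟩
    rw [mem_bxx_sh] at hv1
    rw [Finset.mem_coe, Sb, Finset.mem_filter]
    refine ⟨hv1, ?_⟩
    simp only [du] at hv2
    simpa [shi] using hv2

theorem kap_exp_dual {Q : ℝ} (hQ : 1 ≤ Q) (hm : F_markov) (hg : F_good) (hd : F_dual)
    {x : ℤ × ℤ} {r R : ℤ} (hrR : r + 2 < R)
    (hA : Pr Q (bxx (sh x) R) eta1 {ω | ArmPx (sh x) (r + 1) (R - 1) ω} ≤ 1 / 2)
    {η : Cfg} (hη : Good η) :
    Ex Q (bxx x R) η (fun ω => (3 / 2 : ℝ) ^ kap x r R 1 false ω) ≤ 2 := by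
  have hQ0 : 0 < Q := by linarith
  have h1 := kap_exp_primal hQ hm hg hrR hA (hd.1 η hη)
  have e : (bxx x R).image (fun v => (v.1 + 1, v.2)) = bxx (sh x) R := by
    ext v
    rw [mem_bxx_sh]
    constructor
    · intro h
      obtain ⟨w, hw, rfl⟩ := Finset.mem_image.1 h
      have : shi (w.1 + 1, w.2) = w := shi_sh w
      rw [this]; exact hw
    · intro h
      exact Finset.mem_image.2 ⟨shi v, h, sh_shi v⟩
  have h2 := hd.2 Q (bxx x R) η (fun ω => (3 / 2 : ℝ) ^ kc (sh x) r R (bxx (sh x) R) ω) hQ0 hη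
  rw [e] at h2
  rw [h2] at h1
  simp only [kap_dual]
  exact h1

theorem sub_bxx (x : ℤ × ℤ) (R : ℤ) : Bq x (R - 1) ⊆ bxx x R := by
  intro v hv
  simp only [Bq, bxx, Finset.mem_product, Finset.mem_Ico, Finset.mem_Icc] at hv ⊢
  omega

/-- **GQ2 (c).** The number of the loops which cross an annulus is bounded by a local variable which
has an exponential moment, uniformly in the boundary conditions. -/
def CrossFK (Q : ℝ) : Prop := ∃ (k : ℤ) (l C : ℝ), 2 ≤ k ∧ 0 < l ∧ 0 < C ∧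
  ∀ (x : ℤ × ℤ) (r : ℤ), 1 ≤ r → ∃ Z : Cfg → ℕ,
    (∀ ω ω' : Cfg, (∀ v, nm (v - x) ≤ k * r → ω v = ω' v) → Z ω = Z ω') ∧
    (∀ ω, Set.ncard {ℓ | IsLoop ω ℓ ∧ (∃ v ∈ vs ℓ, nm (v - x) ≤ r) ∧
      ∃ v ∈ vs ℓ, k * r ≤ nm (v - x)} ≤ Z ω) ∧
    ∀ (D : Finset (ℤ × ℤ)) (η : Cfg) (G : Cfg → ℝ), Good η → bxx x (k * r) ⊆ D →
      (∀ ω, 0 ≤ G ω) → Ind (bxx x (k * r)) G →
      Ex Q D η (fun ω => G ω * Real.exp (l * (Z ω : ℝ))) ≤ C * Ex Q D η G

theorem cross_fk {Q : ℝ} (hQ : 1 ≤ Q) (hm : F_markov) (hg : F_good) (hd : F_dual)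
    (h : RSW Q) : CrossFK Q := by
  have hQ0 : 0 < Q := by linarith
  obtain ⟨α, C, hα, hC, hdec, -⟩ := arm_dec_all hQ hm hg f_fkg f_comp hd h
  -- the ratio
  obtain ⟨n, hn, hn4⟩ : ∃ n : ℕ, C * ((4 : ℝ) / n) ^ α ≤ 1 / 2 ∧ 4 ≤ n := by
    have h1 : Tendsto (fun n : ℕ => C * ((4 : ℝ) / n) ^ α) atTop (𝓝 0) := by
      have h2 : Tendsto (fun n : ℕ => (4 : ℝ) / n) atTop (𝓝 0) :=
        tendsto_const_div_atTop_nhds_zero_nat 4
      have h3 := (h2.rpow_const (p := α) (Or.inr hα.le)).const_mul C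
      rw [Real.zero_rpow hα.ne', mul_zero] at h3
      exact h3
    obtain ⟨n, h2, h3⟩ := ((h1.eventually (ge_mem_nhds (show (0 : ℝ) < 1 / 2 by norm_num))).and
      (eventually_ge_atTop 4)).exists
    exact ⟨n, h2, h3⟩
  have hn4' : (4 : ℝ) ≤ n := by exact_mod_cast hn4
  have hn4'' : (4 : ℤ) ≤ n := by exact_mod_cast hn4
  have harm : ∀ (x : ℤ × ℤ) (r : ℤ), 1 ≤ r → Pr Q (bxx x ((n + 1) * r)) eta1
      {ω | ArmPx x (r + 1) ((n + 1) * r - 1) ω} ≤ 1 / 2 := by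
    intro x r hr
    have hr' : (1 : ℝ) ≤ r := by exact_mod_cast hr
    have h1 := hdec x (r + 1) ((n + 1) * r - 1) (bxx x ((n + 1) * r)) eta1 (fun _ => 1)
      (by omega) (by nlinarith) hg.2.2
      (Finset.sdiff_subset.trans (sub_bxx x ((n + 1) * r))) (fun _ => zero_le_one)
      (fun _ _ _ => rfl)
    rw [Ex_const hQ0] at h1
    simp only [one_mul, mul_one] at h1
    refine h1.trans (le_trans ?_ hn)
    refine mul_le_mul_of_nonneg_left (Real.rpow_le_rpow ?_ ?_ hα.le) hC.le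
    · push_cast
      apply div_nonneg <;> nlinarith
    · push_cast
      rw [div_le_div_iff₀ (by nlinarith) (by linarith)]
      nlinarith
  have hlog : 0 < Real.log (3 / 2) := Real.log_pos (by norm_num)
  refine ⟨n + 1, Real.log (3 / 2) / 2, 2, by omega, by linarith, by norm_num,
    fun x r hr => ⟨fun ω => kap x r ((n + 1) * r) 0 true ω + kap x r ((n + 1) * r) 1 false ω,
      ?_, ?_, ?_⟩⟩
  · intro ω ω' hω
    simp only [kap, Sb_congr hω]
  · intro ω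
    exact loops_le s_nx s_jump s_step s_two x r ((n + 1) * r) ω
  · intro D η G hη hD hG0 hG
    rw [markov hm hQ0 hD hη hG, ← Ex_mul_left]
    refine Ex_mono hQ0 fun S _ => ?_
    rw [mul_comm (2 : ℝ)]
    refine mul_le_mul_of_nonneg_left ?_ (hG0 _)
    generalize hζ : cf D η S = ζ
    have hζg : Good ζ := by rw [← hζ]; exact hg.1 _ _ _ hη
    have hrR : r + 2 < ((n : ℤ) + 1) * r := by nlinarith
    have h1 := kap_exp_primal hQ hm hg hrR (harm x r hr) hζg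
    have h2 := kap_exp_dual hQ hm hg hd hrR (harm (sh x) r hr) hζg
    have h3 : Ex Q (bxx x ((n + 1) * r)) ζ (fun ω => Real.exp (Real.log (3 / 2) / 2 *
        ((kap x r ((n + 1) * r) 0 true ω + kap x r ((n + 1) * r) 1 false ω : ℕ) : ℝ))) ≤
        Ex Q (bxx x ((n + 1) * r)) ζ (fun ω => (1 / 2) *
          ((3 / 2 : ℝ) ^ kc x r ((n + 1) * r) (bxx x ((n + 1) * r)) ω +
          (3 / 2 : ℝ) ^ kap x r ((n + 1) * r) 1 false ω)) := by
      refine Ex_mono hQ0 fun T _ => ?_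
      rw [← kap_eq]
      generalize kap x r ((n + 1) * r) 0 true (cf (bxx x ((n + 1) * r)) ζ T) = a
      generalize kap x r ((n + 1) * r) 1 false (cf (bxx x ((n + 1) * r)) ζ T) = b
      have e : ∀ n : ℕ, ((3 : ℝ) / 2) ^ n = Real.exp (Real.log (3 / 2) / 2 * n) ^ 2 := by
        intro n
        rw [← Real.exp_nat_mul, ← Real.rpow_natCast, Real.rpow_def_of_pos (by norm_num)]
        congr 1
        push_cast
        ring
      rw [e a, e b]
      push_cast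
      rw [mul_add, Real.exp_add]
      nlinarith [sq_nonneg (Real.exp (Real.log (3 / 2) / 2 * (a : ℝ)) -
          Real.exp (Real.log (3 / 2) / 2 * (b : ℝ)))]
    rw [Ex_mul_left, Ex_add] at h3
    linarith

end Vale.Agent.P167.FKA
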