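import Vale.Agent.P167.FKA.Arms

/-!
# P167, general `q`, block GQ2: dual arms
-/

namespace Vale.Agent.P167.FKA

open Finset Filter Topology MeasureTheory Vale.Agent.P167.FK
open Vale.Agent.P145.FB (PStep PConn)
open Relation

/-- The inverse of `du`. -/
def dui (ω : Cfg) : Cfg := fun v => !(ω (v.1 + 1, v.2))

theorem dui_du (ω : Cfg) : dui (du ω) = ω := by
  funext v
  simp [dui, du]

theorem du_dui (ω : Cfg) : du (dui ω) = ω := by
  funext v
  simp [dui, du]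

/-- The shift by `(1, 0)`. -/
def sh (v : ℤ × ℤ) : ℤ × ℤ := (v.1 + 1, v.2)

/-- The shift by `(-1, 0)`. -/
def shi (v : ℤ × ℤ) : ℤ × ℤ := (v.1 - 1, v.2)

theorem sh_shi (v : ℤ × ℤ) : sh (shi v) = v := by simp [sh, shi]

theorem shi_sh (v : ℤ × ℤ) : shi (sh v) = v := by simp [sh, shi]

theorem step_sh {F F' : Set (ℤ × ℤ)} (hF : ∀ v ∈ F, sh v ∈ F') {u v : ℤ × ℤ} (h : PStep F u v) :
    PStep F' (sh u) (sh v) := by
  obtain ⟨h1, h2, h3⟩ := h
  refine ⟨by simp only [sh]; omega, by simp only [sh]; omega, ?_⟩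
  have := hF _ h3
  have e : ((min (sh u).1 (sh v).1, min (sh u).2 (sh v).2) : ℤ × ℤ) =
      sh (min u.1 v.1, min u.2 v.2) := by
    simp only [sh, Prod.mk.injEq, and_true]
    omega
  rw [e]
  exact this

theorem step_shi {F F' : Set (ℤ × ℤ)} (hF : ∀ v ∈ F, shi v ∈ F') {u v : ℤ × ℤ}
    (h : PStep F u v) : PStep F' (shi u) (shi v) := by
  obtain ⟨h1, h2, h3⟩ := h
  refine ⟨by simp only [shi]; omega, by simp only [shi]; omega, ?_⟩
  have := hF _ h3
  have e : ((min (shi u).1 (shi v).1, min (shi u).2 (shi v).2) : ℤ × ℤ) =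
      shi (min u.1 v.1, min u.2 v.2) := by
    simp only [shi, Prod.mk.injEq, and_true]
    omega
  rw [e]
  exact this

theorem pconn_sh {F F' R R' : Set (ℤ × ℤ)} (hF : ∀ v ∈ F, sh v ∈ F') (hR : ∀ v ∈ R, sh v ∈ R')
    {u v : ℤ × ℤ} (h : PConn F R u v) : PConn F' R' (sh u) (sh v) := by
  obtain ⟨h0, h⟩ := h
  refine ⟨hR _ h0, ?_⟩
  induction h with
  | refl => exact ReflTransGen.refl
  | tail _ h ih => exact ih.tail ⟨step_sh hF h.1, hR _ h.2⟩

theorem pconn_shi {F F' R R' : Set (ℤ × ℤ)} (hF : ∀ v ∈ F, shi v ∈ F') (hR : ∀ v ∈ R, shi v ∈ R')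
    {u v : ℤ × ℤ} (h : PConn F R u v) : PConn F' R' (shi u) (shi v) := by
  obtain ⟨h0, h⟩ := h
  refine ⟨hR _ h0, ?_⟩
  induction h with
  | refl => exact ReflTransGen.refl
  | tail _ h ih => exact ih.tail ⟨step_shi hF h.1, hR _ h.2⟩

theorem nm_sh (u x : ℤ × ℤ) : nm (sh u - sh x) = nm (u - x) := by
  unfold nm sh
  simp only [Prod.fst_sub, Prod.snd_sub, add_sub_add_right_eq_sub]

theorem nm_shi (u x : ℤ × ℤ) : nm (shi u - x) = nm (u - sh x) := by
  unfold nm sh shi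
  simp only [Prod.fst_sub, Prod.snd_sub]
  congr 2
  ring

theorem op_du {ω : Cfg} {v : ℤ × ℤ} (h : v ∈ (op ω)ᶜ) : sh v ∈ op (du ω) := by
  have h1 : ¬ ω v = true := h
  show du ω (sh v) = true
  simp only [du, sh, add_sub_cancel_right]
  simpa using h1

theorem op_du' {ω : Cfg} {v : ℤ × ℤ} (h : v ∈ op (du ω)) : shi v ∈ (op ω)ᶜ := by
  have h1 : du ω v = true := h
  show ¬ ω (shi v) = true
  simp only [du, shi] at *
  simpa using h1

/-- Duality for arms. -/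
theorem arm_dual {x : ℤ × ℤ} {r R : ℤ} {ω : Cfg} :
    ArmDx x r R ω ↔ ArmPx (sh x) r R (du ω) := by
  constructor
  · rintro ⟨u, v, h1, h2, h3, h4⟩
    refine ⟨sh u, sh v, ?_, by rw [nm_sh]; exact h2, by rw [nm_sh]; exact h3,
      pconn_sh (fun w hw => op_du hw) (fun w hw => ?_) h4⟩
    · simp only [sh, Int.even_iff, Int.odd_iff] at *; omega
    · show nm (sh w - sh x) ≤ R
      rw [nm_sh]; exact hw
  · rintro ⟨u, v, h1, h2, h3, h4⟩
    refine ⟨shi u, shi v, ?_, by rw [nm_shi]; exact h2, by rw [nm_shi]; exact h3,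
      pconn_shi (fun w hw => op_du' hw) (fun w hw => ?_) h4⟩
    · simp only [shi, Int.even_iff, Int.odd_iff] at *; omega
    · show nm (shi w - x) ≤ R
      rw [nm_shi]; exact hw

/-- Conditional form of the decay of dual arms. -/
def ArmDecD (Q α C : ℝ) : Prop := ∀ (x : ℤ × ℤ) (r R : ℤ) (D : Finset (ℤ × ℤ)) (η : Cfg)
  (G : Cfg → ℝ), 1 ≤ r → r ≤ R → Good η → Bq x R \ Bq x r ⊆ D → (∀ ω, 0 ≤ G ω) →
  Ind (Bq x R \ Bq x r) G →
  Ex Q D η (fun ω => G ω * {ω | ArmDx x r R ω}.indicator 1 ω) ≤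
    C * ((r : ℝ) / R) ^ α * Ex Q D η G

theorem mem_Bq_sh {x : ℤ × ℤ} {R : ℤ} {v : ℤ × ℤ} : v ∈ Bq (sh x) R ↔ shi v ∈ Bq x R := by
  simp only [Bq, sh, shi, Finset.mem_product, Finset.mem_Ico]
  omega

theorem armdecD (hd : F_dual) {Q α C : ℝ} (hQ : 0 < Q) (h : ArmDec Q α C) : ArmDecD Q α C := by
  intro x r R D η G hr hrR hη hD hG0 hG
  have h1 := h (sh x) r R (D.image sh) (du η) (fun ω => G (dui ω)) hr hrR (hd.1 η hη) ?_
    (fun ω => hG0 _) ?_
  · have e1 : Ex Q (D.image sh) (du η)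
        (fun ω => G (dui ω) * {ω | ArmPx (sh x) r R ω}.indicator 1 ω) =
        Ex Q D η (fun ω => G ω * {ω | ArmDx x r R ω}.indicator 1 ω) := by
      have := hd.2 Q D η (fun ω => G (dui ω) * {ω | ArmPx (sh x) r R ω}.indicator 1 ω) hQ hη
      refine this.trans (Ex_congr fun S _ => ?_)
      simp only [dui_du]
      congr 1
      by_cases h5 : ArmDx x r R (cf D η S)
      · rw [Set.indicator_of_mem (show cf D η S ∈ {ω | ArmDx x r R ω} from h5),
          Set.indicator_of_mem (show du (cf D η S) ∈ {ω | ArmPx (sh x) r R ω} from arm_dual.1 h5)]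
        rfl
      · rw [Set.indicator_of_notMem (show cf D η S ∉ {ω | ArmDx x r R ω} from h5),
          Set.indicator_of_notMem (show du (cf D η S) ∉ {ω | ArmPx (sh x) r R ω} from
            fun h6 => h5 (arm_dual.2 h6))]
    have e2 : Ex Q (D.image sh) (du η) (fun ω => G (dui ω)) = Ex Q D η G := by
      have := hd.2 Q D η (fun ω => G (dui ω)) hQ hη
      refine this.trans (Ex_congr fun S _ => ?_)
      simp only [dui_du]
    rw [e1, e2] at h1
    exact h1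
  · intro v hv
    rw [Finset.mem_sdiff, mem_Bq_sh, mem_Bq_sh] at hv
    rw [Finset.mem_image]
    exact ⟨shi v, hD (Finset.mem_sdiff.2 hv), sh_shi v⟩
  · intro ω ω' h2
    refine hG _ _ fun v hv => ?_
    simp only [dui]
    congr 1
    refine h2 _ fun h3 => hv ?_
    have h4 : sh v ∈ Bq (sh x) R \ Bq (sh x) r := h3
    rw [Finset.mem_sdiff, mem_Bq_sh, mem_Bq_sh, shi_sh] at h4
    exact Finset.mem_sdiff.2 h4

/-- **GQ2 (a), (b)**: uniform decay of arms. -/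
theorem arm_dec_all {Q : ℝ} (hQ : 1 ≤ Q) (hm : F_markov) (hg : F_good) (hf : F_fkg)
    (hc : F_comp) (hd : F_dual) (h : RSW Q) :
    ∃ α C : ℝ, 0 < α ∧ 0 < C ∧ ArmDec Q α C ∧ ArmDecD Q α C := by
  have hQ0 : 0 < Q := by linarith
  obtain ⟨α, C, h1, h2, h3⟩ := arm_dec hQ hm hg hf hc (rswp_of_rsw hQ0 h)
  exact ⟨α, C, h1, h2, h3, armdecD hd hQ0 h3⟩

end Vale.Agent.P167.FKA
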