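import Vale.Agent.P167.FKA.Clu
import Vale.Agent.P167.H259.FKDone

/-!
# P167, general `q`, block GQ2: number of the crossing clusters under arbitrary boundary conditions
-/

namespace Vale.Agent.P167.FKA

open Finset Filter Topology MeasureTheory Vale.Agent.P167.FK
open Vale.Agent.P145.FB (PStep PConn step_of_corners)
open Vale.Agent.P167.H166 (cl CC CC_finite PStep_mono rtg_mono cl_eq cl_parity bxx mem_bxx)
open Relation

theorem rtg_symm {F : Set (ℤ × ℤ)} {u v : ℤ × ℤ} (h : ReflTransGen (PStep F) u v) :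
    ReflTransGen (PStep F) v u := by
  induction h with
  | refl => exact ReflTransGen.refl
  | tail _ h ih => exact ReflTransGen.head h.symm ih

/-- Two points of a cone are connected. -/
theorem meet {F H : Set (ℤ × ℤ)} {e f : ℤ × ℤ} (he : ∀ z ∈ H, z + e ∈ H ∧ PStep F z (z + e))
    (hf : ∀ z ∈ H, z + f ∈ H ∧ PStep F z (z + f)) {z w : ℤ × ℤ} (hz : z ∈ H) (hw : w ∈ H)
    (i j : ℤ) (h : w = z + i • e + j • f) : ReflTransGen (PStep F) z w := by
  have ray : ∀ (g : ℤ × ℤ), (∀ z ∈ H, z + g ∈ H ∧ PStep F z (z + g)) → ∀ (n : ℕ) (z : ℤ × ℤ),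
      z ∈ H → z + (n : ℤ) • g ∈ H ∧ ReflTransGen (PStep F) z (z + (n : ℤ) • g) := by
    intro g hg n
    induction n with
    | zero =>
      intro z hz
      have e0 : z + ((0 : ℕ) : ℤ) • g = z := by simp
      rw [e0]
      exact ⟨hz, ReflTransGen.refl⟩
    | succ n ih =>
      intro z hz
      obtain ⟨h1, h2⟩ := ih z hz
      obtain ⟨h3, h4⟩ := hg _ h1
      have e1 : z + ((n + 1 : ℕ) : ℤ) • g = z + (n : ℤ) • g + g := by
        push_cast
        rw [add_smul, one_smul, add_assoc]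
      rw [e1]
      exact ⟨h3, h2.tail h4⟩
  obtain ⟨p, p', hp⟩ : ∃ p p' : ℕ, i = (p : ℤ) - p' := ⟨i.toNat, (-i).toNat, by omega⟩
  obtain ⟨q, q', hq⟩ : ∃ q q' : ℕ, j = (q : ℤ) - q' := ⟨j.toNat, (-j).toNat, by omega⟩
  obtain ⟨a1, a2⟩ := ray e he p z hz
  obtain ⟨a3, a4⟩ := ray f hf q _ a1
  obtain ⟨b1, b2⟩ := ray e he p' w hw
  obtain ⟨b3, b4⟩ := ray f hf q' _ b1
  have key : z + (p : ℤ) • e + (q : ℤ) • f = w + (p' : ℤ) • e + (q' : ℤ) • f := by
    rw [h, hp, hq]
    ext <;> simp only [Prod.fst_add, Prod.snd_add, Prod.smul_fst, Prod.smul_snd, smul_eq_mul] <;>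
      ring
  have h5 := a2.trans a4
  have h6 := b2.trans b4
  rw [key] at h5
  exact h5.trans (rtg_symm h6)

/-- The outside of a rectangle is connected. -/
theorem outside_conn {F : Set (ℤ × ℤ)} {a b c d : ℤ}
    (hF : ∀ v : ℤ × ℤ, (v.1 < a ∨ b < v.1 ∨ v.2 < c ∨ d < v.2) → v ∈ F) {z w : ℤ × ℤ}
    (hz : Even (z.1 + z.2)) (hw : Even (w.1 + w.2))
    (hzo : z.1 ≤ a ∨ b < z.1 ∨ z.2 ≤ c ∨ d < z.2)
    (hwo : w.1 ≤ a ∨ b < w.1 ∨ w.2 ≤ c ∨ d < w.2) : ReflTransGen (PStep F) z w := by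
  rw [Int.even_iff] at hz hw
  -- the four half planes
  have hR : ∀ z w : ℤ × ℤ, b < z.1 → b < w.1 → (z.1 + z.2) % 2 = 0 → (w.1 + w.2) % 2 = 0 →
      ReflTransGen (PStep F) z w := by
    intro z w h1 h2 h3 h4
    refine meet (H := {v | b < v.1}) (e := (1, 1)) (f := (1, -1)) ?_ ?_ h1 h2
      ((w.1 - z.1 + (w.2 - z.2)) / 2) ((w.1 - z.1 - (w.2 - z.2)) / 2) ?_
    · intro v hv
      have hv' : b < v.1 := hv
      refine ⟨by show b < v.1 + 1; omega, by simp, by simp, hF _ ?_⟩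
      simp only [Prod.fst_add, Prod.snd_add]
      omega
    · intro v hv
      have hv' : b < v.1 := hv
      refine ⟨by show b < v.1 + 1; omega, by simp, by right; simp only [Prod.snd_add]; ring,
        hF _ ?_⟩
      simp only [Prod.fst_add, Prod.snd_add]
      omega
    · ext <;> simp only [Prod.fst_add, Prod.snd_add, Prod.smul_fst, Prod.smul_snd, smul_eq_mul] <;>
        omega
  have hL : ∀ z w : ℤ × ℤ, z.1 ≤ a → w.1 ≤ a → (z.1 + z.2) % 2 = 0 → (w.1 + w.2) % 2 = 0 →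
      ReflTransGen (PStep F) z w := by
    intro z w h1 h2 h3 h4
    refine meet (H := {v | v.1 ≤ a}) (e := (-1, 1)) (f := (-1, -1)) ?_ ?_ h1 h2
      ((z.1 - w.1 + (w.2 - z.2)) / 2) ((z.1 - w.1 - (w.2 - z.2)) / 2) ?_
    · intro v hv
      have hv' : v.1 ≤ a := hv
      refine ⟨by show v.1 + -1 ≤ a; omega, by right; simp only [Prod.fst_add]; ring, by simp,
        hF _ ?_⟩
      simp only [Prod.fst_add, Prod.snd_add]
      omega
    · intro v hv
      have hv' : v.1 ≤ a := hv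
      refine ⟨by show v.1 + -1 ≤ a; omega, by right; simp only [Prod.fst_add]; ring,
        by right; simp only [Prod.snd_add]; ring, hF _ ?_⟩
      simp only [Prod.fst_add, Prod.snd_add]
      omega
    · ext <;> simp only [Prod.fst_add, Prod.snd_add, Prod.smul_fst, Prod.smul_snd, smul_eq_mul] <;>
        omega
  have hU : ∀ z w : ℤ × ℤ, d < z.2 → d < w.2 → (z.1 + z.2) % 2 = 0 → (w.1 + w.2) % 2 = 0 →
      ReflTransGen (PStep F) z w := by
    intro z w h1 h2 h3 h4
    refine meet (H := {v | d < v.2}) (e := (1, 1)) (f := (-1, 1)) ?_ ?_ h1 h2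
      ((w.2 - z.2 + (w.1 - z.1)) / 2) ((w.2 - z.2 - (w.1 - z.1)) / 2) ?_
    · intro v hv
      have hv' : d < v.2 := hv
      refine ⟨by show d < v.2 + 1; omega, by simp, by simp, hF _ ?_⟩
      simp only [Prod.fst_add, Prod.snd_add]
      omega
    · intro v hv
      have hv' : d < v.2 := hv
      refine ⟨by show d < v.2 + 1; omega, by right; simp only [Prod.fst_add]; ring, by simp,
        hF _ ?_⟩
      simp only [Prod.fst_add, Prod.snd_add]
      omega
    · ext <;> simp only [Prod.fst_add, Prod.snd_add, Prod.smul_fst, Prod.smul_snd, smul_eq_mul] <;>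
        omega
  have hD : ∀ z w : ℤ × ℤ, z.2 ≤ c → w.2 ≤ c → (z.1 + z.2) % 2 = 0 → (w.1 + w.2) % 2 = 0 →
      ReflTransGen (PStep F) z w := by
    intro z w h1 h2 h3 h4
    refine meet (H := {v | v.2 ≤ c}) (e := (1, -1)) (f := (-1, -1)) ?_ ?_ h1 h2
      ((z.2 - w.2 + (w.1 - z.1)) / 2) ((z.2 - w.2 - (w.1 - z.1)) / 2) ?_
    · intro v hv
      have hv' : v.2 ≤ c := hv
      refine ⟨by show v.2 + -1 ≤ c; omega, by simp, by right; simp only [Prod.snd_add]; ring,
        hF _ ?_⟩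
      simp only [Prod.fst_add, Prod.snd_add]
      omega
    · intro v hv
      have hv' : v.2 ≤ c := hv
      refine ⟨by show v.2 + -1 ≤ c; omega, by right; simp only [Prod.fst_add]; ring,
        by right; simp only [Prod.snd_add]; ring, hF _ ?_⟩
      simp only [Prod.fst_add, Prod.snd_add]
      omega
    · ext <;> simp only [Prod.fst_add, Prod.snd_add, Prod.smul_fst, Prod.smul_snd, smul_eq_mul] <;>
        omega
  -- everything is joined to one point
  obtain ⟨m, hm1, hm2⟩ : ∃ m : ℤ, b < 2 * m ∧ d < 2 * m := ⟨max |b| |d| + 1, by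
    have := le_abs_self b; have := le_max_left |b| |d|; have := abs_nonneg b; omega, by
    have := le_abs_self d; have := le_max_right |b| |d|; have := abs_nonneg d; omega⟩
  have hall : ∀ z : ℤ × ℤ, (z.1 + z.2) % 2 = 0 → (z.1 ≤ a ∨ b < z.1 ∨ z.2 ≤ c ∨ d < z.2) →
      ReflTransGen (PStep F) z (2 * m, 2 * m) := by
    intro z h1 h2
    rcases h2 with h2 | h2 | h2 | h2
    · obtain ⟨l, hl1⟩ : ∃ l : ℤ, 2 * l ≤ a := ⟨a / 2, by omega⟩
      exact (hL z (2 * l, 2 * m) h2 hl1 h1 (by dsimp only; omega)).trans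
        (hU _ _ hm2 hm2 (by dsimp only; omega) (by dsimp only; omega))
    · exact hR z _ h2 hm1 h1 (by dsimp only; omega)
    · obtain ⟨l, hl1⟩ : ∃ l : ℤ, 2 * l ≤ c := ⟨c / 2, by omega⟩
      exact (hD z (2 * m, 2 * l) h2 hl1 h1 (by dsimp only; omega)).trans
        (hR _ _ hm1 hm1 (by dsimp only; omega) (by dsimp only; omega))
    · exact hU z _ h2 hm2 h1 (by dsimp only; omega)
  exact (hall z hz hzo).trans (rtg_symm (hall w hw hwo))

/-- A crossing of the open squares of `D`. -/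
theorem kc_pos {x : ℤ × ℤ} {r R : ℤ} {D : Finset (ℤ × ℤ)} {ω : Cfg} :
    1 ≤ kc x r R D ω ↔ ∃ s t : ℤ × ℤ, (s.1 + s.2) % 2 = 0 ∧ nm (s - x) ≤ r + 1 ∧
      R - 1 ≤ nm (t - x) ∧ ReflTransGen (PStep (Op D ω)) s t := by
  unfold kc
  rw [Nat.one_le_iff_ne_zero, ← Nat.pos_iff_ne_zero, Set.ncard_pos (CC_finite x r R 0 (Op D ω))]
  constructor
  · rintro ⟨C, s, h1, h2, rfl, t, h3, h4⟩
    exact ⟨s, t, h1, h2, h4, h3⟩
  · rintro ⟨s, t, h1, h2, h3, h4⟩
    exact ⟨cl (Op D ω) s, s, h1, h2, rfl, t, h4, h3⟩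

theorem kc_pos_mono {x : ℤ × ℤ} {r R : ℤ} {D D' : Finset (ℤ × ℤ)} (hD : D ⊆ D') {ω ω' : Cfg}
    (h : ∀ v, ω v = true → ω' v = true) (hk : 1 ≤ kc x r R D ω) : 1 ≤ kc x r R D' ω' := by
  rw [kc_pos] at hk ⊢
  obtain ⟨s, t, h1, h2, h3, h4⟩ := hk
  exact ⟨s, t, h1, h2, h3, rtg_mono (F := Op D ω) (F' := Op D' ω')
    (fun v hv => ⟨hD hv.1, h v hv.2⟩) h4⟩

theorem arm_of_kc {x : ℤ × ℤ} {r R : ℤ} (hrR : r + 2 < R) {D : Finset (ℤ × ℤ)} {ω : Cfg}
    (hk : 1 ≤ kc x r R D ω) : ArmPx x (r + 1) (R - 1) ω := by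
  rw [kc_pos] at hk
  obtain ⟨s, t, h1, h2, h3, h4⟩ := hk
  rw [armPx_iff (by omega)]
  exact ⟨s, t, by rw [Int.even_iff]; exact h1, h2, h3,
    rtg_mono (F := Op D ω) (F' := op ω) (fun v hv => hv.2) h4⟩

theorem cor_pa (v : ℤ × ℤ) : Cor v (pa v) ∧ Even ((pa v).1 + (pa v).2) := by
  unfold pa Cor
  by_cases h : Even (v.1 + v.2)
  · rw [if_pos h]
    exact ⟨⟨Or.inl rfl, Or.inl rfl⟩, h⟩
  · rw [if_neg h]
    refine ⟨⟨Or.inl rfl, Or.inr rfl⟩, ?_⟩
    rw [Int.even_iff] at h ⊢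
    show (v.1 + (v.2 + 1)) % 2 = 0
    omega

theorem cor_pb (v : ℤ × ℤ) : Cor v (pb v) ∧ Even ((pb v).1 + (pb v).2) := by
  unfold pb Cor
  by_cases h : Even (v.1 + v.2)
  · rw [if_pos h]
    refine ⟨⟨Or.inr rfl, Or.inr rfl⟩, ?_⟩
    rw [Int.even_iff] at h ⊢
    show (v.1 + 1 + (v.2 + 1)) % 2 = 0
    omega
  · rw [if_neg h]
    refine ⟨⟨Or.inr rfl, Or.inl rfl⟩, ?_⟩
    rw [Int.even_iff] at h ⊢
    show (v.1 + 1 + v.2) % 2 = 0
    omega

/-- Connections in a separated domain are connections for the boundary condition which is open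
outside of the box and closed on the explored squares. -/
theorem sep_conn {x : ℤ × ℤ} {R : ℤ} {D : Finset (ℤ × ℤ)} {η : Cfg} (hD : D ⊆ bxx x R)
    (hsep : Sep (bxx x R : Finset (ℤ × ℤ)) D η) (S : Finset (ℤ × ℤ)) {u v : ℤ × ℤ}
    (hue : Even (u.1 + u.2)) (hu : ∃ a ∈ D, Cor a u) (hv : ∃ a ∈ D, Cor a v)
    (h : PC (cf D η S) u v) : PC (cf D (cf (bxx x R) eta1 ∅) S) u v := by
  set B := bxx x R with hB
  set ω₂ := cf D (cf B eta1 ∅) S with hω₂
  have hout : ∀ w, w ∉ B → ω₂ w = true := by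
    intro w hw
    rw [hω₂, cf_out (fun h => hw (hD h)), cf_out hw]
    rfl
  have hbo : ∀ w : ℤ × ℤ, w ∉ B ↔ (w.1 < x.1 - R ∨ x.1 + R < w.1 ∨ w.2 < x.2 - R ∨
      x.2 + R < w.2) := by
    intro w
    rw [hB]
    simp only [bxx, Finset.mem_product, Finset.mem_Icc]
    omega
  have hcn : ∀ z w : ℤ × ℤ, Even (z.1 + z.2) → Even (w.1 + w.2) → (∃ q, q ∉ B ∧ Cor q z) →
      (∃ q, q ∉ B ∧ Cor q w) → PC ω₂ z w := by
    rintro z w hz hw ⟨q, hq, hqz⟩ ⟨q', hq', hqw⟩
    rw [hbo] at hq hq'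
    unfold Cor at hqz hqw
    refine outside_conn (a := x.1 - R) (b := x.1 + R) (c := x.2 - R) (d := x.2 + R)
      (fun v hv => hout v ((hbo v).2 hv)) hz hw (by omega) (by omega)
  -- the invariant
  have key : ∀ y, ReflTransGen (PStep (op (cf D η S))) u y → PC ω₂ u y ∨
      ((∃ z, Even (z.1 + z.2) ∧ (∃ q, q ∉ B ∧ Cor q z) ∧ PC ω₂ u z) ∧ ∀ a ∈ D, ¬ Cor a y) := by
    intro y hy
    induction hy with
    | refl => exact Or.inl ReflTransGen.refl
    | @tail y y' huy hst ih =>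
      have hye : Even (y.1 + y.2) := even_of_rtg hue huy
      have hye' : Even (y'.1 + y'.2) := (even_step hst).1 hye
      obtain ⟨hc1, hc2⟩ := cor_of_step hst
      obtain ⟨q, hq⟩ : ∃ q : ℤ × ℤ, q = (min y.1 y'.1, min y.2 y'.2) := ⟨_, rfl⟩
      rw [← hq] at hc1 hc2
      have hop : cf D η S q = true := by
        have := hst.2.2
        rw [← hq] at this
        exact this
      by_cases hqB : q ∈ B
      · by_cases hqD : q ∈ D
        · -- a square of the domain
          have h1 : PC ω₂ u y := by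
            rcases ih with h | ⟨-, h⟩
            · exact h
            · exact absurd hc1 (h q hqD)
          left
          refine ReflTransGen.tail h1 ⟨hst.1, hst.2.1, ?_⟩
          show ω₂ _ = true
          rw [← hq]
          simp only [cf, hqD, if_true] at hop
          rw [hω₂]
          simp only [cf, hqD, if_true]
          exact hop
        · -- an explored square
          rw [cf_out hqD] at hop
          have hno : ∀ a ∈ D, ¬ Cor a y := fun a ha =>
            hsep q (Finset.mem_coe.2 hqB) hqD hop a ha y hye hc1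
          have hno' : ∀ a ∈ D, ¬ Cor a y' := fun a ha =>
            hsep q (Finset.mem_coe.2 hqB) hqD hop a ha y' hye' hc2
          right
          refine ⟨?_, hno'⟩
          rcases ih with h | ⟨h, -⟩
          · -- the last step of the path to `y`
            rcases ReflTransGen.cases_tail h with h2 | ⟨w, h2, h3⟩
            · obtain ⟨a, ha, hca⟩ := hu
              rw [h2] at hno
              exact absurd hca (hno a ha)
            · have h4 := (cor_of_step h3).2
              refine ⟨y, hye, ⟨_, ?_, h4⟩, h⟩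
              intro hB'
              have h5 : ω₂ (min w.1 y.1, min w.2 y.2) = true := h3.2.2
              by_cases h6 : (min w.1 y.1, min w.2 y.2) ∈ D
              · exact hno _ h6 h4
              · rw [hω₂, cf_out h6] at h5
                simp only [cf, hB', if_true, Finset.notMem_empty, decide_false] at h5
                exact absurd h5 (by simp)
          · exact h
      · -- an outer square
        left
        have hqq : PStep (op ω₂) y y' := ⟨hst.1, hst.2.1, by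
          show ω₂ _ = true
          rw [← hq]
          exact hout q hqB⟩
        rcases ih with h | ⟨⟨z, hz, hzo, huz⟩, -⟩
        · exact ReflTransGen.tail h hqq
        · exact ReflTransGen.trans huz (hcn z y' hz hye' hzo ⟨q, hqB, hc2⟩)
  rcases key v h with h1 | ⟨-, h1⟩
  · exact h1
  · obtain ⟨a, ha, hca⟩ := hv
    exact absurd hca (h1 a ha)

end Vale.Agent.P167.FKA
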