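import Vale.Agent.P167.FKA.WirC

/-!
# P167, block K.14: induction over the scales
-/

namespace Vale.Agent.P167.FKA

open Finset Filter Topology MeasureTheory Vale.Agent.P167.FK
open Vale.Agent.P145.FB (PStep PConn PP IL Inc LRc Ann IL_LRc IL_Ann IL_Hc NC Hc NN geo)
open Vale.Agent.P167.H259 (f_markov f_fkg f_comp f_comp2)
open Vale.Agent.P167.K8 (ArmF Sc cnt K_blk K_rsw)
open Relation

variable {Q : ℝ}

/-- A priori bound at scale `2 ^ j`. -/
def HB (Q : ℝ) (j : ℕ) (h : ℝ) : Prop := ∃ (r : ℤ) (g : ℝ), 1 ≤ r ∧ r ≤ 2 ^ j ∧ 0 < g ∧ g ≤ 1 ∧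
  ArmF Q r (2 * r) g ∧ (2 : ℝ) ^ j ≤ h * (r * g)

theorem HB.mono {j : ℕ} {h h' : ℝ} (hh : h ≤ h') (H : HB Q j h) : HB Q j h' := by
  obtain ⟨r, g, h1, h2, h3, h4, h5, h6⟩ := H
  refine ⟨r, g, h1, h2, h3, h4, h5, h6.trans ?_⟩
  have : (1 : ℝ) ≤ r := by exact_mod_cast h1
  exact mul_le_mul_of_nonneg_right hh (by positivity)

theorem exists_HB (hQ : 1 ≤ Q) : ∃ g1 : ℝ, 0 < g1 ∧ ∀ j, HB Q j (2 ^ j / g1) := by
  obtain ⟨g, h1, h2, h3⟩ := armF_one hQ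
  refine ⟨g, h1, fun j => ⟨1, g, le_rfl, by exact_mod_cast Nat.one_le_two_pow, h1, h2, h3, ?_⟩⟩
  push_cast
  rw [one_mul, div_mul_cancel₀ _ h1.ne']

/-- The exponent in the change of the ratio. -/
noncomputable def NN0 : ℕ := (ctrM 15).card

theorem HB_of_circ (hQ : 1 ≤ Q) {s : ℤ} (hs : 6 ≤ s) {c : ℝ} (hc0 : 0 < c) (hc1 : c ≤ 1)
    (h : ∀ p q : ℤ, c ≤ (ppw Q hQ).p (Ann p q (2 * s))) {j : ℕ} (hj : 20 * s - 20 ≤ 2 ^ j)
    {b : ℝ} (hb : (2 : ℝ) ^ j ≤ b * ((20 * s - 20) * c ^ NN0)) : HB Q j b := by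
  have h1 := armF_of_ann hQ (t := 2 * s) (by omega) h
  have h2 := armF_ring hQ (t := 2 * s - 2) (Λ := 5) (M := 15) (by omega) (by norm_num)
    (by norm_num) hc0.le h1
  have e1 : ((15 : ℤ) - 5) * (2 * s - 2) = 20 * s - 20 := by ring
  have e2 : ((15 : ℤ) + 5) * (2 * s - 2) = 2 * (20 * s - 20) := by ring
  rw [e1, e2] at h2
  refine ⟨20 * s - 20, c ^ NN0, by omega, hj, by positivity, pow_le_one₀ hc0.le hc1, h2, ?_⟩
  push_cast
  exact hb

/-! ### Geometric sums -/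

theorem geo_sum (J : ℕ) : ∑ j ∈ Finset.range (J + 1), (4 : ℝ) ^ j ≤ 4 / 3 * 4 ^ J := by
  induction J with
  | zero => norm_num
  | succ J ih =>
    rw [Finset.sum_range_succ, pow_succ]
    linarith

open Classical in
theorem part_sum {B : ℝ} (hB : 0 ≤ B) (J : ℕ) :
    ∑ j ∈ Finset.range (J + 1), (if (2 : ℝ) ^ j < B then (4 : ℝ) ^ j else 0) ≤ 4 / 3 * B ^ 2 := by
  induction J with
  | zero =>
    rw [Finset.sum_range_one, pow_zero, pow_zero]
    by_cases h : (1 : ℝ) < B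
    · rw [if_pos h]; nlinarith
    · rw [if_neg h]; positivity
  | succ J ih =>
    by_cases h : (2 : ℝ) ^ (J + 1) < B
    · refine (Finset.sum_le_sum fun j _ => ?_).trans ((geo_sum (J + 1)).trans ?_)
      · split_ifs
        · exact le_rfl
        · positivity
      · have h2 : (4 : ℝ) ^ (J + 1) = (2 ^ (J + 1)) ^ 2 := by
          rw [← pow_mul, mul_comm, pow_mul]; norm_num
        rw [h2]
        have h3 : (0 : ℝ) < 2 ^ (J + 1) := by positivity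
        nlinarith
    · rw [Finset.sum_range_succ, if_neg h, add_zero]
      exact ih

theorem cnt_bound {h : ℕ → ℝ} {H hs B : ℝ} (hH : 0 ≤ H) (hhs : 0 ≤ hs) (hB : 0 ≤ B) {J : ℕ}
    (h1 : ∀ j ≤ J, (2 : ℝ) ^ j < B → h j ≤ H) (h2 : ∀ j ≤ J, B ≤ (2 : ℝ) ^ j → h j ≤ hs)
    (hJ : H * B ^ 2 ≤ 4 ^ J) :
    ∑ j ∈ Finset.range (J + 1), (4 : ℝ) ^ j / 4 ^ J * h j ≤ 4 / 3 * (1 + hs) := by
  classical
  have h4J : (0 : ℝ) < 4 ^ J := by positivity
  calc ∑ j ∈ Finset.range (J + 1), (4 : ℝ) ^ j / 4 ^ J * h j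
      ≤ ∑ j ∈ Finset.range (J + 1), (H / 4 ^ J * (if (2 : ℝ) ^ j < B then (4 : ℝ) ^ j else 0) +
          hs / 4 ^ J * 4 ^ j) := by
        refine Finset.sum_le_sum fun j hj => ?_
        have hj' : j ≤ J := by
          have := Finset.mem_range.1 hj
          omega
        have h4 : (0 : ℝ) < 4 ^ j := by positivity
        by_cases hc : (2 : ℝ) ^ j < B
        · rw [if_pos hc]
          have h5 := h1 j hj' hc
          have h6 : (4 : ℝ) ^ j / 4 ^ J * h j ≤ 4 ^ j / 4 ^ J * H :=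
            mul_le_mul_of_nonneg_left h5 (by positivity)
          have h7 : 0 ≤ hs / 4 ^ J * 4 ^ j := by positivity
          have h8 : (4 : ℝ) ^ j / 4 ^ J * H = H / 4 ^ J * 4 ^ j := by ring
          linarith
        · rw [if_neg hc, mul_zero, zero_add]
          have h5 := h2 j hj' (not_lt.1 hc)
          have h6 : (4 : ℝ) ^ j / 4 ^ J * h j ≤ 4 ^ j / 4 ^ J * hs :=
            mul_le_mul_of_nonneg_left h5 (by positivity)
          have h8 : (4 : ℝ) ^ j / 4 ^ J * hs = hs / 4 ^ J * 4 ^ j := by ring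
          linarith
    _ = H / 4 ^ J * ∑ j ∈ Finset.range (J + 1), (if (2 : ℝ) ^ j < B then (4 : ℝ) ^ j else 0) +
          hs / 4 ^ J * ∑ j ∈ Finset.range (J + 1), (4 : ℝ) ^ j := by
        rw [Finset.sum_add_distrib, Finset.mul_sum, Finset.mul_sum]
    _ ≤ H / 4 ^ J * (4 / 3 * B ^ 2) + hs / 4 ^ J * (4 / 3 * 4 ^ J) :=
        add_le_add (mul_le_mul_of_nonneg_left (part_sum hB J) (by positivity))
          (mul_le_mul_of_nonneg_left (geo_sum J) (by positivity))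
    _ = 4 / 3 * (H * B ^ 2 / 4 ^ J + hs) := by field_simp
    _ ≤ 4 / 3 * (1 + hs) := by
        have : H * B ^ 2 / 4 ^ J ≤ 1 := by rw [div_le_one h4J]; exact hJ
        linarith

/-! ### One block -/

/-- The conclusion of a block, for primal arms of the wired measure. -/
def Blk (Q : ℝ) (k J0 : ℕ) (C : ℝ) : Prop := ∀ h : ℕ → ℝ, (∀ j, HB Q j (h j)) → ∀ J : ℕ, J0 ≤ J →
  ∑ j ∈ Finset.range (J + 1), (4 : ℝ) ^ j / 4 ^ J * h j ≤ C →
  ∑ j ∈ Finset.range (J + k + 1), (4 : ℝ) ^ j / 4 ^ (J + k) * h j ≤ C →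
  Pr Q (Bq (1, 0) (2 ^ (J + k))) eta1 {ω | ArmPx (1, 0) (2 ^ (J + 2)) (2 ^ (J + k)) ω} ≤ 2 / 3

theorem Bq_sh (x : ℤ × ℤ) (R : ℤ) : (Bq x R).image sh = Bq (sh x) R := by
  ext v
  rw [mem_Bq_sh]
  constructor
  · intro h
    obtain ⟨w, hw, rfl⟩ := Finset.mem_image.1 h
    rw [shi_sh]; exact hw
  · intro h
    exact Finset.mem_image.2 ⟨shi v, h, sh_shi v⟩

theorem pr_wired_arm (hQ : 0 < Q) (x : ℤ × ℤ) (r R N : ℤ) :
    Pr Q (Bq (sh x) N) eta1 {ω | ArmPx (sh x) r R ω} = Pr Q (Bq x N) eta0 {ω | ArmDx x r R ω} := by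
  have h1 := pr_dual (D := Bq x N) hQ f_good.2.1 {ω | ArmPx (sh x) r R ω}
  rw [du_eta0, Bq_sh, arm_du, shi_sh] at h1
  exact h1

theorem blk_of (hb : K_blk) {θ : ℝ} (h0 : 0 ≤ θ) (h1 : θ ≤ Real.pi / 3) (C : ℝ) :
    ∃ k J0 : ℕ, 8 ≤ k ∧ Blk (2 * Real.cos θ) k J0 C := by
  obtain ⟨k, J0, hk, H⟩ := hb θ h0 h1 C
  refine ⟨k, J0, hk, fun h hh J hJ hc1 hc2 => ?_⟩
  choose r g a1 a2 a3 a4 a5 a6 using hh
  have hle : ∀ j, (2 : ℝ) ^ j / (r j * g j) ≤ h j := by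
    intro j
    have : (1 : ℝ) ≤ r j := by exact_mod_cast a1 j
    have h3 := a3 j
    rw [div_le_iff₀ (by positivity)]
    exact a6 j
  have hcnt : ∀ J, cnt r g J ≤ ∑ j ∈ Finset.range (J + 1), (4 : ℝ) ^ j / 4 ^ J * h j := by
    intro J
    unfold cnt
    exact Finset.sum_le_sum fun j _ => mul_le_mul_of_nonneg_left (hle j) (by positivity)
  have h2 := H r g ⟨a1, a2, a3, a4, a5⟩ J hJ ((hcnt J).trans hc1) ((hcnt (J + k)).trans hc2)
  have hQ0 : 0 < 2 * Real.cos θ := by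
    have := Real.cos_pos_of_mem_Ioo (x := θ) ⟨by linarith [Real.pi_pos], by linarith [Real.pi_pos]⟩
    linarith
  have e : ((1, 0) : ℤ × ℤ) = sh 0 := by simp [sh]
  rw [e, pr_wired_arm hQ0]
  exact h2

/-! ### The range of a good scale -/

/-- `al` is small on `[4 n, t]`. -/
def Rg (P : PP) (c0 : ℝ) (n t : ℕ) : Prop := ∀ s : ℕ, 4 * n ≤ s → s ≤ t → P.al c0 s < 2 * n

/-- The range of a good scale is not too long. -/
theorem range_bound (hQ : 1 ≤ Q) {c0 g1 hs : ℝ} (hc0 : 0 < c0) (hhs : 0 ≤ hs)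
    (hg1 : ∀ j, HB Q j (2 ^ j / g1)) {k J0 m : ℕ} (hk : 8 ≤ k) (hm : ((2 : ℝ) / 3) ^ m < c0 / 4)
    (hm1 : 1 ≤ m) (hb : Blk Q k J0 (4 / 3 * (1 + hs))) {n : ℕ} (hn : 2 ^ J0 ≤ n) {w : ℝ}
    (hw : 1 ≤ w) (hH : ∀ j, (2 : ℝ) ^ j < 80 * n → HB Q j (w ^ 4)) {t : ℕ} (ht : 4 * n ≤ t)
    (hR : Rg (ppw Q hQ) c0 n t)
    (hstar : ∀ j, 80 * (n : ℝ) ≤ 2 ^ j → (2 : ℝ) ^ j ≤ 20 * t → HB Q j hs) :
    (t : ℝ) ≤ 160 * 2 ^ (m * k) * w ^ 2 * n := by
  classical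
  have hQ0 : 0 < Q := by linarith
  by_contra hcon
  push Not at hcon
  have hn1 : (1 : ℝ) ≤ n := by
    have : 1 ≤ n := le_trans Nat.one_le_two_pow hn
    exact_mod_cast this
  set X : ℝ := 80 * n * w ^ 2 with hX
  have hw2 : 1 ≤ w ^ 2 := one_le_pow₀ hw
  have hX1 : 80 * (n : ℝ) ≤ X := by rw [hX]; nlinarith
  have hX0 : 1 ≤ X := by linarith
  obtain ⟨J1, hJ1, hJ1'⟩ : ∃ J1 : ℕ, X ≤ 2 ^ J1 ∧ (2 : ℝ) ^ J1 < 2 * X := by
    have hex : ∃ J : ℕ, X ≤ 2 ^ J := by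
      obtain ⟨J, hJ⟩ := pow_unbounded_of_one_lt X (by norm_num : (1 : ℝ) < 2)
      exact ⟨J, hJ.le⟩
    refine ⟨Nat.find hex, Nat.find_spec hex, ?_⟩
    rcases Nat.eq_zero_or_pos (Nat.find hex) with h | h
    · rw [h]; norm_num; linarith
    · obtain ⟨J, hJ⟩ := Nat.exists_eq_succ_of_ne_zero h.ne'
      have h2 := Nat.find_min hex (m := J) (by omega)
      push Not at h2
      rw [hJ, pow_succ]
      linarith
  have hJ01 : J0 ≤ J1 := by
    have h3 : (2 : ℝ) ^ J0 ≤ 2 ^ J1 := by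
      have : (2 : ℝ) ^ J0 ≤ n := by exact_mod_cast hn
      linarith
    exact (pow_le_pow_iff_right₀ (by norm_num : (1 : ℝ) < 2)).1 h3
  have htop : (2 : ℝ) ^ (J1 + m * k) ≤ t := by
    rw [pow_add]
    have h2 : (0 : ℝ) < 2 ^ (m * k) := by positivity
    calc (2 : ℝ) ^ J1 * 2 ^ (m * k) ≤ (2 * X) * 2 ^ (m * k) :=
          mul_le_mul_of_nonneg_right hJ1'.le h2.le
      _ = 160 * 2 ^ (m * k) * w ^ 2 * n := by rw [hX]; ring
      _ ≤ t := hcon.le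
  -- the bounds at all scales
  set h : ℕ → ℝ := fun j => if (2 : ℝ) ^ j < 80 * n then w ^ 4 else
    if (2 : ℝ) ^ j ≤ 20 * t then hs else 2 ^ j / g1 with hh
  have hHB : ∀ j, HB Q j (h j) := by
    intro j
    simp only [hh]
    split_ifs with a1 a2
    · exact hH j a1
    · exact hstar j (not_lt.1 a1) a2
    · exact hg1 j
  have hw4 : (0 : ℝ) ≤ w ^ 4 := by positivity
  have hsum : ∀ J, J1 ≤ J → J ≤ J1 + m * k →
      ∑ j ∈ Finset.range (J + 1), (4 : ℝ) ^ j / 4 ^ J * h j ≤ 4 / 3 * (1 + hs) := by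
    intro J h1 h2
    have h3 : ∀ j ≤ J, (2 : ℝ) ^ j ≤ 20 * t := by
      intro j hj
      have h4 : (2 : ℝ) ^ j ≤ 2 ^ (J1 + m * k) := pow_le_pow_right₀ (by norm_num) (hj.trans h2)
      have : (0 : ℝ) ≤ t := by positivity
      linarith
    refine cnt_bound (H := w ^ 4) (B := 80 * n) hw4 hhs (by positivity) ?_ ?_ ?_
    · intro j _ hj
      simp only [hh, hj, if_true]
      exact le_rfl
    · intro j hjJ hj
      simp only [hh, not_lt.2 hj, if_false, h3 j hjJ, if_true]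
      exact le_rfl
    · have h5 : X ^ 2 ≤ (2 ^ J) ^ 2 := by
        refine pow_le_pow_left₀ (by linarith) (hJ1.trans ?_) 2
        exact pow_le_pow_right₀ (by norm_num) h1
      have h6 : ((2 : ℝ) ^ J) ^ 2 = 4 ^ J := by rw [← pow_mul, mul_comm, pow_mul]; norm_num
      rw [h6] at h5
      calc w ^ 4 * (80 * (n : ℝ)) ^ 2 = X ^ 2 := by rw [hX]; ring
        _ ≤ 4 ^ J := h5
  -- the blocks
  set b : ℕ → ℤ := fun i => 2 ^ (J1 + i * k + k) with hbd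
  set a : ℕ → ℤ := fun i => 2 ^ (J1 + i * k + 2) with had
  have hab : ∀ i, a i ≤ b i := fun i => by
    simp only [hbd, had]
    exact pow_le_pow_right₀ (by norm_num) (by omega)
  have hba : ∀ i, b i ≤ a (i + 1) := fun i => by
    simp only [hbd, had]
    refine pow_le_pow_right₀ (by norm_num) ?_
    have : (i + 1) * k = i * k + k := by ring
    omega
  have hik : ∀ i, i < m → i * k + k ≤ m * k := fun i hi => by
    calc i * k + k = (i + 1) * k := by ring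
      _ ≤ m * k := Nat.mul_le_mul_right _ (by omega)
  have hp : ∀ i < m, Pr Q (Bq (1, 0) (b i)) eta1 {ω | ArmPx (1, 0) (a i) (b i) ω} ≤ 2 / 3 := by
    intro i hi
    have := hik i hi
    exact hb h hHB (J1 + i * k) (by omega) (hsum _ (by omega) (by omega))
      (hsum _ (by omega) (by omega))
  set D := Bq (1, 0) (2 ^ (J1 + m * k)) with hD
  have h1 := arm_prod hQ hab hba (by norm_num : (0 : ℝ) ≤ 2 / 3) m hp D eta1 (fun _ => 1)
    f_good.2.2 (fun i hi => Bq_mono (by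
      simp only [hbd]
      have := hik i hi
      exact pow_le_pow_right₀ (by norm_num) (by omega))) (fun _ => zero_le_one)
    (fun _ _ _ _ _ => rfl)
  rw [Ex_const hQ0] at h1
  simp only [one_mul, mul_one] at h1
  have h2 := long_arm hQ (c0 := c0) (s := 2 * n) (t := t) (by
    have : 1 ≤ n := by exact_mod_cast hn1
    omega) (by omega) (hR t ht le_rfl)
  have h3 := h2.trans (pw_le hQ (inc_arm _ _ _) D)
  have h4 : Pr Q D eta1 {ω | ArmPx (1, 0) (((2 * n : ℕ) : ℤ) + 1) (2 * (t : ℤ) - 1) ω} ≤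
      Pr Q D eta1 (⋂ i ∈ Finset.range m, {ω | ArmPx (1, 0) (a i) (b i) ω}) := by
    refine Pr_mono hQ0 ?_
    intro ω hω
    simp only [Set.mem_iInter, Finset.mem_range]
    intro i hi
    refine arm_sub ?_ (hab i) ?_ hω
    · have h5 : (80 * (n : ℤ)) ≤ 2 ^ J1 := by
        have : 80 * (n : ℝ) ≤ 2 ^ J1 := hX1.trans hJ1
        exact_mod_cast this
      have h6 : (2 : ℤ) ^ J1 ≤ a i := by
        simp only [had]
        exact pow_le_pow_right₀ (by norm_num) (by omega)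
      push_cast
      have : (1 : ℤ) ≤ n := by exact_mod_cast hn1
      linarith
    · have h5 : (2 : ℤ) ^ (J1 + m * k) ≤ t := by exact_mod_cast htop
      have h6 : b i ≤ 2 ^ (J1 + m * k) := by
        simp only [hbd]
        have := hik i hi
        exact pow_le_pow_right₀ (by norm_num) (by omega)
      have h7 : (1 : ℤ) ≤ 2 ^ (J1 + m * k) := one_le_pow₀ (by norm_num)
      linarith
  have h5 : Pr Q D eta1 (⋂ i ∈ Finset.range m, {ω | ArmPx (1, 0) (a i) (b i) ω}) ≤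
      (2 / 3) ^ m := h1
  linarith

end Vale.Agent.P167.FKA
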