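import Vale.Agent.P167.FKA.Scale

/-!
# P167, block K.14: conclusion (`K_tas : K_blk → K_rsw`)
-/

namespace Vale.Agent.P167.FKA

open Finset Filter Topology MeasureTheory Vale.Agent.P167.FK
open Vale.Agent.P145.FB (PStep PConn PP IL Inc LRc Ann IL_LRc IL_Ann IL_Hc NC Hc NN geo)
open Vale.Agent.P145.FB.PP (useq useq_ge useq_le useq_le')
open Vale.Agent.P167.H259 (f_markov f_fkg f_comp f_comp2)
open Vale.Agent.P167.K8 (ArmF Sc cnt K_blk K_rsw)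
open Relation

variable {Q : ℝ}

/-! ### The next good scale -/

theorem exists_J34 {T n : ℕ} (hn : 1 ≤ n) (hT : 4 * n ≤ T) :
    ∃ J : ℕ, 3 ^ (J + 1) * T < 4 ^ (J + 1) * (4 * n) ∧ 4 ^ J * (4 * n) ≤ 3 ^ J * T := by
  classical
  have hex : ∃ J : ℕ, 3 ^ J * T < 4 ^ J * (4 * n) := by
    obtain ⟨J, hJ⟩ := pow_unbounded_of_one_lt (T : ℝ) (by norm_num : (1 : ℝ) < 4 / 3)
    refine ⟨J, ?_⟩
    have h3 : (0 : ℝ) < 3 ^ J := by positivity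
    have hn' : (1 : ℝ) ≤ n := by exact_mod_cast hn
    have h1 : (3 : ℝ) ^ J * T < 4 ^ J * (4 * n) := by
      calc (3 : ℝ) ^ J * T < 3 ^ J * (4 / 3) ^ J := mul_lt_mul_of_pos_left hJ h3
        _ = 4 ^ J := by rw [← mul_pow]; norm_num
        _ ≤ 4 ^ J * (4 * n) := by
          have : (0 : ℝ) < 4 ^ J := by positivity
          nlinarith
    exact_mod_cast h1
  have h0 : Nat.find hex ≠ 0 := by
    intro h
    have h1 := Nat.find_spec hex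
    rw [h] at h1
    omega
  obtain ⟨J, hJ⟩ := Nat.exists_eq_succ_of_ne_zero h0
  refine ⟨J, ?_, ?_⟩
  · have h1 := Nat.find_spec hex
    rwa [hJ] at h1
  · have h1 := Nat.find_min hex (m := J) (by omega)
    exact not_lt.1 h1

theorem next_good (P : PP) {c0 : ℝ} (h0 : 0 < c0) (hc : c0 ≤ 1) (hsq : P.Sq c0 0) {n T : ℕ}
    (hn : 1 ≤ n) (hT : 4 * n ≤ T) (hal : 2 * n ≤ P.al c0 T) :
    ∃ (n' J : ℕ), T < n' ∧ P.Good c0 n' ∧ 2 ^ (J + 1) * n' ≤ 3 ^ (J + 1) * T ∧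
      4 ^ J * (4 * n) ≤ 3 ^ J * T := by
  obtain ⟨J, hJ1, hJ2⟩ := exists_J34 hn hT
  have hex : ∃ j < J + 1, P.Good c0 (useq T (j + 1)) := by
    by_contra hcon
    push Not at hcon
    have h1 := PP.grow geo h0 hc hsq (t := T) (by omega) (by omega) (J := J + 1)
      (fun j hj => hcon j hj) (J + 1) le_rfl
    have h2 := P.al_le c0 (useq T (J + 1))
    have h3 := useq_le T (J + 1)
    have h4 : 2 ^ (J + 1) * (2 * n) ≤ useq T (J + 1) / 2 :=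
      (Nat.mul_le_mul_left _ hal).trans (h1.trans h2)
    have h5 : 2 ^ (J + 1) * (4 * n) ≤ useq T (J + 1) := by
      have : 2 ^ (J + 1) * (4 * n) = 2 * (2 ^ (J + 1) * (2 * n)) := by ring
      omega
    have h6 : 4 ^ (J + 1) * (4 * n) ≤ 3 ^ (J + 1) * T := by
      have e : (4 : ℕ) ^ (J + 1) = 2 ^ (J + 1) * 2 ^ (J + 1) := by rw [← mul_pow]; norm_num
      calc 4 ^ (J + 1) * (4 * n) = 2 ^ (J + 1) * (2 ^ (J + 1) * (4 * n)) := by rw [e]; ring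
        _ ≤ 2 ^ (J + 1) * useq T (J + 1) := Nat.mul_le_mul_left _ h5
        _ ≤ _ := h3
    omega
  obtain ⟨j, hj, hg⟩ := hex
  refine ⟨useq T (j + 1), J, ?_, hg, ?_, hJ2⟩
  · have := useq_ge T j
    simp only [useq]; omega
  · have h3 := useq_le T (j + 1)
    obtain ⟨i, hi⟩ : ∃ i, J + 1 = j + 1 + i := ⟨J - j, by omega⟩
    rw [hi, pow_add 2, pow_add 3]
    calc 2 ^ (j + 1) * 2 ^ i * useq T (j + 1) = 2 ^ i * (2 ^ (j + 1) * useq T (j + 1)) := by ring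
      _ ≤ 3 ^ i * (3 ^ (j + 1) * T) :=
        Nat.mul_le_mul (Nat.pow_le_pow_left (by norm_num) i) h3
      _ = 3 ^ (j + 1) * 3 ^ i * T := by ring

/-- The bound of `n' / T` in terms of `T / n`. -/
theorem next_ratio {n T n' J : ℕ} (hn : 1 ≤ n) (h1 : 2 ^ (J + 1) * n' ≤ 3 ^ (J + 1) * T)
    (h2 : 4 ^ J * (4 * n) ≤ 3 ^ J * T) {K w : ℝ} (hK : 1 ≤ K) (hw : 1 ≤ w)
    (hT : (T : ℝ) ≤ K * w ^ 2 * n) : (n' : ℝ) ≤ 3 / 2 * K ^ 2 * w ^ 3 * T := by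
  have hn' : (1 : ℝ) ≤ n := by exact_mod_cast hn
  set u : ℝ := (3 / 2) ^ J with hu
  have hu0 : 0 < u := by positivity
  have e1 : (n' : ℝ) ≤ 3 / 2 * u * T := by
    have h3 : (2 : ℝ) ^ (J + 1) * n' ≤ 3 ^ (J + 1) * T := by exact_mod_cast h1
    have h4 : (0 : ℝ) < 2 ^ (J + 1) := by positivity
    have h5 : (3 : ℝ) ^ (J + 1) = 2 ^ (J + 1) * (3 / 2 * u) := by
      rw [hu, div_pow, pow_succ, pow_succ]
      field_simp
    rw [h5, mul_assoc] at h3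
    exact le_of_mul_le_mul_left h3 h4
  have e2 : ((4 : ℝ) / 3) ^ J ≤ K * w ^ 2 := by
    have h3 : (4 : ℝ) ^ J * (4 * n) ≤ 3 ^ J * T := by exact_mod_cast h2
    have h4 : (0 : ℝ) < 3 ^ J := by positivity
    have h5 : (4 : ℝ) ^ J * (4 * n) ≤ 3 ^ J * (K * w ^ 2 * n) :=
      h3.trans (mul_le_mul_of_nonneg_left hT h4.le)
    rw [div_pow, div_le_iff₀ h4]
    have h6 : (4 : ℝ) ^ J * n ≤ K * w ^ 2 * 3 ^ J * n := by
      have : (0 : ℝ) < 4 ^ J := by positivity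
      nlinarith [mul_pos this (show (0 : ℝ) < n by linarith)]
    exact le_of_mul_le_mul_right h6 (by linarith)
  have e3 : u ^ 2 ≤ (K ^ 2 * w ^ 3) ^ 2 := by
    have h3 : u ^ 2 ≤ (((4 : ℝ) / 3) ^ J) ^ 3 := by
      rw [hu, ← pow_mul, ← pow_mul, mul_comm J 2, mul_comm J 3, pow_mul, pow_mul]
      exact pow_le_pow_left₀ (by norm_num) (by norm_num) J
    have h4 : (((4 : ℝ) / 3) ^ J) ^ 3 ≤ (K * w ^ 2) ^ 3 :=
      pow_le_pow_left₀ (by positivity) e2 3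
    have h5 : (K * w ^ 2) ^ 3 ≤ (K ^ 2 * w ^ 3) ^ 2 := by
      have h6 : K ^ 3 ≤ K ^ 4 := pow_le_pow_right₀ hK (by norm_num)
      have h7 : (0 : ℝ) ≤ w ^ 6 := by positivity
      calc (K * w ^ 2) ^ 3 = K ^ 3 * w ^ 6 := by ring
        _ ≤ K ^ 4 * w ^ 6 := mul_le_mul_of_nonneg_right h6 h7
        _ = _ := by ring
    exact h3.trans (h4.trans h5)
  have e4 : u ≤ K ^ 2 * w ^ 3 := by
    have := abs_le_of_sq_le_sq' e3 (by positivity)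
    exact this.2
  calc (n' : ℝ) ≤ 3 / 2 * u * T := e1
    _ ≤ 3 / 2 * (K ^ 2 * w ^ 3) * T := by
        have : (0 : ℝ) ≤ T := by positivity
        exact mul_le_mul_of_nonneg_right (by linarith) this
    _ = _ := by ring

/-! ### Circuits -/

/-- The constants of the circuits. -/
noncomputable def cc2 : ℝ := (PP.c1 (1 / 2) * (1 / 2 * PP.c1 (1 / 2)) ^ 15) ^ 4

noncomputable def cA4 (b : ℝ) : ℝ :=
  ((1 / 2 / 4) * (1 / 2 / 4) * b) * (1 / 2) * ((1 / 2 / 4) * (1 / 2 / 4) * b) * (1 / 2) *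
    ((1 / 2 / 4) * (1 / 2 / 4) * b)

theorem cc2_pos : 0 < cc2 := by
  have := PP.c1_pos (c0 := 1 / 2) (by norm_num)
  unfold cc2
  positivity

theorem cA4_pos {b : ℝ} (hb : 0 < b) : 0 < cA4 b := by
  unfold cA4
  positivity

theorem sq_w (hQ : 1 ≤ Q) : (ppw Q hQ).Sq (1 / 2) 0 := fun n hn =>
  sq_half_w hQ (by simpa using hn)

/-- Circuits at a good scale. -/
theorem circ_good (hQ : 1 ≤ Q) {n : ℕ} (hn : 8 ≤ n) (hg : (ppw Q hQ).Good (1 / 2) n) (p q : ℤ) :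
    cc2 ≤ (ppw Q hQ).p (Ann p q (2 * (n : ℤ))) := by
  have h1 := PP.ann_of_good geo (by norm_num : (0 : ℝ) < 1 / 2) (sq_w hQ) (Nat.zero_le n) hn hg 15
    (4 * (2 * (n : ℤ))) (by omega) (by push_cast; omega)
  have := PP.c1_pos (c0 := 1 / 2) (by norm_num)
  exact (ppw Q hQ).Ann_ge p q (by positivity) h1

/-- Circuits in the range of a good scale. -/
theorem circ_range (hQ : 1 ≤ Q) {n s : ℕ} (hn : 8 ≤ n) (hg : (ppw Q hQ).Good (1 / 2) n)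
    (hs : 4 * n ≤ s) (hal : (ppw Q hQ).al (1 / 2) s < 2 * n) (p q : ℤ) :
    cA4 cc2 ^ 4 ≤ (ppw Q hQ).p (Ann p q (2 * (s : ℤ))) := by
  have e1 := circ_good hQ hn hg 0 0
  have h0 : (0 : ℝ) < 1 / 2 := by norm_num
  have f1 := PP.long_of_ann geo h0 (s := 2 * n) (t := s) (by omega) (by omega) hal cc2_pos.le
    (by push_cast; exact e1)
  have hap : 0 < (1 / 2 / 4 : ℝ) * (1 / 2 / 4) * cc2 := by
    have := cc2_pos
    positivity
  have f2 := PP.ratio4 geo h0 (sq_w hQ) (t := s) (Nat.zero_le s) hap.le f1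
  refine (ppw Q hQ).Ann_ge p q (cA4_pos cc2_pos).le ?_
  have e : (4 : ℤ) * (2 * s) = 8 * s := by ring
  rw [e]
  exact f2

/-- Circuits if there is no good scale. -/
theorem circ_edge (hQ : 1 ≤ Q) {b : ℝ} (hb : 0 < b)
    (hb' : b ≤ (ppw Q hQ).p (fun S => (0, 0) ∈ S ∧ (0, 1) ∈ S ∧ (0, 2) ∈ S)) {s : ℕ} (hs : 2 ≤ s)
    (hal : (ppw Q hQ).al (1 / 2) s = 0) (p q : ℤ) :
    cA4 b ^ 4 ≤ (ppw Q hQ).p (Ann p q (2 * (s : ℤ))) := by
  have h0 : (0 : ℝ) < 1 / 2 := by norm_num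
  have f1 := PP.long_of_edge geo h0 (t := s) hs hal hb.le hb'
  have hap : 0 < (1 / 2 / 4 : ℝ) * (1 / 2 / 4) * b := by positivity
  have f2 := PP.ratio4 geo h0 (sq_w hQ) (t := s) (Nat.zero_le s) hap.le f1
  refine (ppw Q hQ).Ann_ge p q (cA4_pos hb).le ?_
  have e : (4 : ℤ) * (2 * s) = 8 * s := by ring
  rw [e]
  exact f2

/-- The best scale below `2 ^ j`. -/
theorem HB_star (hQ : 1 ≤ Q) {c : ℝ} (hc0 : 0 < c) (hc1 : c ≤ 1) {a t : ℕ} (ha : 6 ≤ a)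
    (h : ∀ s : ℕ, a ≤ s → s ≤ t → ∀ p q : ℤ, c ≤ (ppw Q hQ).p (Ann p q (2 * (s : ℤ)))) {j : ℕ}
    (h1 : 20 * a ≤ 2 ^ j) (h2 : 2 ^ j ≤ 20 * t) : HB Q j (2 / c ^ NN0) := by
  obtain ⟨s, hs⟩ : ∃ s : ℕ, s = 2 ^ j / 20 := ⟨_, rfl⟩
  have hs1 : a ≤ s := by rw [hs]; omega
  have hs2 : s ≤ t := by rw [hs]; omega
  have hs3 : 20 * s ≤ 2 ^ j := by rw [hs]; omega
  have hs4 : 2 ^ j < 20 * s + 20 := by rw [hs]; omega
  have hcN : 0 < c ^ NN0 := by positivity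
  refine HB_of_circ hQ (s := s) (by omega) hc0 hc1 (h s hs1 hs2) ?_ ?_
  · have : (20 : ℤ) * s ≤ 2 ^ j := by exact_mod_cast hs3
    linarith
  · have h3 : (2 : ℝ) ^ j < 20 * s + 20 := by exact_mod_cast hs4
    have h4 : (6 : ℝ) ≤ s := by exact_mod_cast ha.trans hs1
    have h5 : 2 / c ^ NN0 * ((20 * ((s : ℤ) : ℝ) - 20) * c ^ NN0) = 2 * (20 * (s : ℝ) - 20) := by
      push_cast
      field_simp
    rw [h5]
    linarith

end Vale.Agent.P167.FKA
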