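import Vale.Agent.P167.FKA.Tas

/-!
# P167, block K.14: conclusion (`k_tas : K_blk → K_rsw`)
-/

namespace Vale.Agent.P167.FKA

open Finset Filter Topology MeasureTheory Vale.Agent.P167.FK
open Vale.Agent.P145.FB (PStep PConn PP IL Inc LRc Ann IL_LRc IL_Ann IL_Hc NC Hc NN geo)
open Vale.Agent.P167.H259 (f_markov f_fkg f_comp f_comp2)
open Vale.Agent.P167.K8 (ArmF Sc cnt K_blk K_rsw)
open Relation

variable {Q : ℝ}

attribute [local irreducible] NN0 cc2 cA4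

/-- The range is bounded. -/
theorem bound_lem (hQ : 1 ≤ Q) {g1 : ℝ} (hHB1 : ∀ j, HB Q j (2 ^ j / g1)) {c hs : ℝ} (hc0 : 0 < c)
    (hc1 : c ≤ 1) (hcA : c ≤ cA4 cc2 ^ 4) (hhs : hs = 2 / c ^ NN0) {k J0 m : ℕ} (hk : 8 ≤ k)
    (hb : Blk Q k J0 (4 / 3 * (1 + hs))) (hm1 : 1 ≤ m) (hm : ((2 : ℝ) / 3) ^ m < 1 / 2 / 4)
    {w : ℝ} (hw : 1 ≤ w) {n : ℕ} (hn : 2 ^ J0 ≤ n) (hn12 : 12 ≤ n)
    (hg : (ppw Q hQ).Good (1 / 2) n) (hH : ∀ j, (2 : ℝ) ^ j < 80 * n → HB Q j (w ^ 4)) :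
    (∀ t : ℕ, Rg (ppw Q hQ) (1 / 2) n t → ∀ s : ℕ, 4 * n ≤ s → s ≤ t → ∀ p q : ℤ,
          c ≤ (ppw Q hQ).p (Ann p q (2 * (s : ℤ)))) ∧
    (∀ t : ℕ, Rg (ppw Q hQ) (1 / 2) n t → ∀ j, 80 * (n : ℝ) ≤ 2 ^ j →
          (2 : ℝ) ^ j ≤ 20 * t → HB Q j hs) ∧
    (∀ t : ℕ, 4 * n ≤ t → Rg (ppw Q hQ) (1 / 2) n t →
      (t : ℝ) ≤ 160 * 2 ^ (m * k) * w ^ 2 * n) := by
  have hcirc : ∀ t : ℕ, Rg (ppw Q hQ) (1 / 2) n t → ∀ s : ℕ, 4 * n ≤ s → s ≤ t → ∀ p q : ℤ,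
      c ≤ (ppw Q hQ).p (Ann p q (2 * (s : ℤ))) := fun t hR s h1 h2 p q =>
    hcA.trans (circ_range hQ (by omega) hg h1 (hR s h1 h2) p q)
  have hstar : ∀ t : ℕ, Rg (ppw Q hQ) (1 / 2) n t → ∀ j, 80 * (n : ℝ) ≤ 2 ^ j →
      (2 : ℝ) ^ j ≤ 20 * t → HB Q j hs := by
    intro t hR j h1 h2
    rw [hhs]
    refine HB_star hQ hc0 hc1 (a := 4 * n) (t := t) (by omega) (hcirc t hR) ?_ ?_
    · have h3 : 80 * n ≤ 2 ^ j := by exact_mod_cast h1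
      omega
    · exact_mod_cast h2
  have hhs0 : 0 ≤ hs := by rw [hhs]; exact div_nonneg (by norm_num) (pow_nonneg hc0.le _)
  refine ⟨hcirc, hstar, fun t ht hR => ?_⟩
  exact range_bound hQ (by norm_num : (0 : ℝ) < 1 / 2) hhs0 hHB1 hk hm hm1 hb
      hn hw hH ht hR (hstar t hR)

/-- The first scale after the range. -/
theorem exists_T (P : PP) {n : ℕ} {K1 w : ℝ} (hn : 1 ≤ n) (hK1 : 160 ≤ K1) (hw : 1 ≤ w)
    (hbound : ∀ t : ℕ, 4 * n ≤ t → Rg P (1 / 2) n t → (t : ℝ) ≤ K1 * w ^ 2 * n) :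
    ∃ T : ℕ, 4 * n ≤ T ∧ 2 * n ≤ P.al (1 / 2) T ∧ (∀ s : ℕ, 4 * n ≤ s → s < T →
      P.al (1 / 2) s < 2 * n) ∧ (T : ℝ) ≤ 2 * K1 * w ^ 2 * n := by
  classical
  have hn' : (1 : ℝ) ≤ n := by exact_mod_cast hn
  have hw2 : 1 ≤ w ^ 2 := one_le_pow₀ hw
  have h0 : 1 ≤ w ^ 2 * (n : ℝ) := by nlinarith
  have hTex : ∃ t : ℕ, 4 * n ≤ t ∧ 2 * n ≤ P.al (1 / 2) t := by
    by_contra hcon
    push Not at hcon
    obtain ⟨t, ht⟩ := exists_nat_gt (K1 * w ^ 2 * n + 4 * n)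
    have h1 : (4 * n : ℝ) ≤ t := by
      have : 0 ≤ K1 * w ^ 2 * n := by positivity
      linarith
    have h2 : 4 * n ≤ t := by exact_mod_cast h1
    have h3 := hbound t h2 (fun s hs1 _ => hcon s hs1)
    linarith
  have hT := Nat.find_spec hTex
  have hTmin : ∀ s : ℕ, 4 * n ≤ s → s < Nat.find hTex → P.al (1 / 2) s < 2 * n := by
    intro s h1 h2
    have := Nat.find_min hTex h2
    push Not at this
    exact this h1
  refine ⟨Nat.find hTex, hT.1, hT.2, hTmin, ?_⟩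
  generalize Nat.find hTex = T at hT hTmin
  rcases hT.1.eq_or_lt with h | h
  · have : (T : ℝ) = 4 * n := by rw [← h]; push_cast; ring
    rw [this, mul_assoc]
    nlinarith
  · have h1 := hbound (T - 1) (by omega) (fun s h1 h2 => hTmin s h1 (by omega))
    have h2 : ((T - 1 : ℕ) : ℝ) = T - 1 := by
      rw [Nat.cast_sub (by omega)]; simp
    rw [h2] at h1
    rw [mul_assoc]
    rw [mul_assoc] at h1
    nlinarith

theorem hb_next (hQ : 1 ≤ Q) {c gs hs K w : ℝ} (hc0 : 0 < c) (hc1 : c ≤ 1) (hc2 : c ≤ cc2)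
    (hgs : gs = c ^ NN0) (hhs : hs = 2 / gs) (hK : 1 ≤ K) (w1 : 48 * K ^ 2 / gs ≤ w)
    (w3 : 1 ≤ w) {n T n' : ℕ} (hn12 : 12 ≤ n) (hg : (ppw Q hQ).Good (1 / 2) n)
    (hcirc : ∀ t : ℕ, Rg (ppw Q hQ) (1 / 2) n t → ∀ s : ℕ, 4 * n ≤ s → s ≤ t → ∀ p q : ℤ,
          c ≤ (ppw Q hQ).p (Ann p q (2 * (s : ℤ))))
    (hstar : ∀ t : ℕ, Rg (ppw Q hQ) (1 / 2) n t → ∀ j, 80 * (n : ℝ) ≤ 2 ^ j →
          (2 : ℝ) ^ j ≤ 20 * t → HB Q j hs) (hT : 4 * n ≤ T)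
    (hTmin : ∀ s : ℕ, 4 * n ≤ s → s < T → (ppw Q hQ).al (1 / 2) s < 2 * n)
    (b5 : (n' : ℝ) ≤ 3 / 2 * K ^ 2 * w ^ 3 * T) {j : ℕ} (hj : (2 : ℝ) ^ j < 80 * n')
    (hj1 : 80 * (n : ℝ) ≤ 2 ^ j) : HB Q j (w ^ 4) := by
  have hgs0 : 0 < gs := by rw [hgs]; exact pow_pos hc0 _
  have hnr : (12 : ℝ) ≤ n := by exact_mod_cast hn12
  have hTr : (48 : ℝ) ≤ T := by
    have : 48 ≤ T := by omega
    exact_mod_cast this
  have hK2' : 1 ≤ K ^ 2 * w ^ 3 := one_le_mul_of_one_le_of_one_le (one_le_pow₀ hK)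
    (one_le_pow₀ w3)
  have hbig : 48 * (K ^ 2 * w ^ 3) / gs ≤ w ^ 4 := by
    calc 48 * (K ^ 2 * w ^ 3) / gs = 48 * K ^ 2 / gs * w ^ 3 := by ring
      _ ≤ w * w ^ 3 := mul_le_mul_of_nonneg_right w1 (by positivity)
      _ = w ^ 4 := by ring
  have h2j : (2 : ℝ) ^ j ≤ 120 * (K ^ 2 * w ^ 3) * T := by
    calc (2 : ℝ) ^ j ≤ 80 * n' := hj.le
      _ ≤ 80 * (3 / 2 * K ^ 2 * w ^ 3 * T) := by linarith
      _ = _ := by ring
  generalize K ^ 2 * w ^ 3 = X at hK2' hbig h2j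
  refine HB.mono hbig ?_
  rcases hT.eq_or_lt with h | h
  · -- `T = 4 n`
    have hT4 : (T : ℝ) = 4 * n := by rw [← h]; push_cast; ring
    refine HB_of_circ hQ (s := n) (by omega) hc0 hc1
      (fun p q => hc2.trans (circ_good hQ (by omega) hg p q)) ?_ ?_
    · have : (80 * (n : ℤ)) ≤ 2 ^ j := by exact_mod_cast hj1
      linarith
    · rw [Int.cast_natCast]
      have e : 48 * X / gs * ((20 * (n : ℝ) - 20) * c ^ NN0) = 48 * X * (20 * n - 20) := by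
        rw [← hgs]
        field_simp
      rw [e]
      rw [hT4] at h2j
      nlinarith
  · -- `T > 4 n`
    have hR : Rg (ppw Q hQ) (1 / 2) n (T - 1) := fun s h1 h2 => hTmin s h1 (by omega)
    have h2 : ((T - 1 : ℕ) : ℝ) = T - 1 := by
      rw [Nat.cast_sub (by omega)]; simp
    by_cases hj2 : (2 : ℝ) ^ j ≤ 20 * ((T - 1 : ℕ) : ℝ)
    · refine (hstar (T - 1) hR j hj1 hj2).mono ?_
      rw [hhs, div_le_div_iff_of_pos_right hgs0]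
      linarith
    · push Not at hj2
      refine HB_of_circ hQ (s := ((T - 1 : ℕ) : ℤ)) (by omega) hc0 hc1
        (hcirc (T - 1) hR (T - 1) (by omega) le_rfl) ?_ ?_
      · have h3 : (20 * ((T - 1 : ℕ) : ℤ)) < 2 ^ j := by exact_mod_cast hj2
        linarith
      · have e0 : (((T - 1 : ℕ) : ℤ) : ℝ) = T - 1 := by rw [Int.cast_natCast, h2]
        rw [e0]
        have e : 48 * X / gs * ((20 * ((T : ℝ) - 1) - 20) * c ^ NN0) =
            48 * X * (20 * (T - 1) - 20) := by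
          rw [← hgs]
          field_simp
        rw [e]
        nlinarith

/-- **The a priori bounds hold at all scales: there is a good scale.** -/
theorem all_HB_good (hQ : 1 ≤ Q) {g1 : ℝ} (hg1 : 0 < g1) (hHB1 : ∀ j, HB Q j (2 ^ j / g1))
    {c gs hs : ℝ} (hc0 : 0 < c) (hc1 : c ≤ 1) (hcA : c ≤ cA4 cc2 ^ 4) (hc2 : c ≤ cc2)
    (hgs : gs = c ^ NN0) (hhs : hs = 2 / gs) {k J0 m : ℕ} (hk : 8 ≤ k)
    (hb : Blk Q k J0 (4 / 3 * (1 + hs))) (hm1 : 1 ≤ m) (hm : ((2 : ℝ) / 3) ^ m < 1 / 2 / 4)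
    {n0 : ℕ} (hn0 : 2 ^ J0 ≤ n0) (hn12 : 12 ≤ n0) (hg0 : (ppw Q hQ).Good (1 / 2) n0) :
    ∃ H : ℝ, 0 ≤ H ∧ ∀ j, HB Q j H := by
  obtain ⟨K1, hK1⟩ : ∃ K1 : ℝ, K1 = 160 * 2 ^ (m * k) := ⟨_, rfl⟩
  have hK1' : 160 ≤ K1 := by
    rw [hK1]
    have : (1 : ℝ) ≤ 2 ^ (m * k) := one_le_pow₀ (by norm_num)
    linarith
  obtain ⟨K, hKd⟩ : ∃ K : ℝ, K = 2 * K1 := ⟨_, rfl⟩
  have hK : 1 ≤ K := by rw [hKd]; linarith
  obtain ⟨w, hwd⟩ : ∃ w : ℝ, w = max (48 * K ^ 2 / gs) (max 1 (80 * n0 / g1)) := ⟨_, rfl⟩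
  have w1 : 48 * K ^ 2 / gs ≤ w := by rw [hwd]; exact le_max_left _ _
  have w3 : 1 ≤ w := by rw [hwd]; exact (le_max_left _ _).trans (le_max_right _ _)
  have w4 : 80 * n0 / g1 ≤ w := by rw [hwd]; exact (le_max_right _ _).trans (le_max_right _ _)
  have hww : w ≤ w ^ 4 := by
    calc w = w ^ 1 := (pow_one w).symm
      _ ≤ w ^ 4 := pow_le_pow_right₀ w3 (by norm_num)
  have hhs' : hs = 2 / c ^ NN0 := by rw [hhs, hgs]
  -- the induction step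
  have step : ∀ n : ℕ, n0 ≤ n → (ppw Q hQ).Good (1 / 2) n →
      (∀ j, (2 : ℝ) ^ j < 80 * n → HB Q j (w ^ 4)) →
      ∃ n' : ℕ, n < n' ∧ (ppw Q hQ).Good (1 / 2) n' ∧
        ∀ j, (2 : ℝ) ^ j < 80 * n' → HB Q j (w ^ 4) := by
    intro n hn hg hH
    obtain ⟨hcirc, hstar, hbound⟩ := bound_lem hQ hHB1 hc0 hc1 hcA hhs' hk hb hm1 hm w3
      (hn0.trans hn) (hn12.trans hn) hg hH
    rw [← hK1] at hbound
    obtain ⟨T, hT, hT2, hTmin, hTK⟩ := exists_T (ppw Q hQ) (by omega : 1 ≤ n) hK1' w3 hbound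
    rw [← hKd] at hTK
    obtain ⟨n', J, b1, b2, b3, b4⟩ := next_good (ppw Q hQ) (by norm_num : (0 : ℝ) < 1 / 2)
      (by norm_num) (sq_w hQ) (by omega : 1 ≤ n) hT hT2
    have b5 := next_ratio (by omega : 1 ≤ n) b3 b4 hK w3 hTK
    refine ⟨n', by omega, b2, fun j hj => ?_⟩
    by_cases hj1 : (2 : ℝ) ^ j < 80 * n
    · exact hH j hj1
    exact hb_next hQ hc0 hc1 hc2 hgs hhs hK w1 w3 (hn12.trans hn) hg hcirc hstar hT hTmin b5 hj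
      (not_lt.1 hj1)
  -- unboundedness
  have hunb : ∀ N : ℕ, ∃ n : ℕ, N ≤ n ∧ n0 ≤ n ∧ (ppw Q hQ).Good (1 / 2) n ∧
      ∀ j, (2 : ℝ) ^ j < 80 * n → HB Q j (w ^ 4) := by
    intro N
    induction N with
    | zero =>
      refine ⟨n0, Nat.zero_le _, le_rfl, hg0, fun j hj => (hHB1 j).mono ?_⟩
      refine le_trans ?_ hww
      refine le_trans ?_ w4
      exact div_le_div_of_nonneg_right hj.le hg1.le
    | succ N ih =>
      obtain ⟨n, a1, a2, a3, a4⟩ := ih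
      obtain ⟨n', b1, b2, b3⟩ := step n a2 a3 a4
      exact ⟨n', by omega, by omega, b2, b3⟩
  refine ⟨w ^ 4, by positivity, fun j => ?_⟩
  obtain ⟨N, hN⟩ := exists_nat_gt ((2 : ℝ) ^ j)
  obtain ⟨n, a1, -, -, a4⟩ := hunb N
  refine a4 j ?_
  have : (N : ℝ) ≤ n := by exact_mod_cast a1
  have : (0 : ℝ) ≤ n := by positivity
  linarith

/-- **The a priori bounds hold at all scales: there is no good scale.** -/
theorem all_HB_bad (hQ : 1 ≤ Q) {g1 : ℝ} (hg1 : 0 < g1) (hHB1 : ∀ j, HB Q j (2 ^ j / g1))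
    {n1 : ℕ} (hn1b : 12 ≤ n1) (hex : ∀ n, n1 ≤ n → ¬ (ppw Q hQ).Good (1 / 2) n) :
    ∃ H : ℝ, 0 ≤ H ∧ ∀ j, HB Q j H := by
  have hal : ∀ t, n1 ≤ t → (ppw Q hQ).al (1 / 2) t = 0 := by
    intro t ht
    by_contra hne
    obtain ⟨J, hJ⟩ := PP.next2 (P := ppw Q hQ) (c0 := 1 / 2) (N := 0) geo (by norm_num)
      (by norm_num) (sq_w hQ) t
    obtain ⟨n, a1, _, a3⟩ := hJ t (by omega) (by omega) (by omega)
      (Nat.le_mul_of_pos_right _ (by omega))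
    exact hex n (by omega) a3
  obtain ⟨b0, hb0⟩ : ∃ b0, b0 = (ppw Q hQ).p (fun S => (0, 0) ∈ S ∧ (0, 1) ∈ S ∧ (0, 2) ∈ S) :=
    ⟨_, rfl⟩
  have hb0p : 0 < b0 := by rw [hb0]; exact edge_pos_w hQ
  obtain ⟨cB, hcB⟩ : ∃ cB : ℝ, cB = min (cA4 b0 ^ 4) 1 := ⟨_, rfl⟩
  have hcB0 : 0 < cB := by
    have := cA4_pos hb0p
    rw [hcB]
    exact lt_min (pow_pos this 4) one_pos
  have hcB1 : cB ≤ 1 := by rw [hcB]; exact min_le_right _ _
  have hcB4 : cB ≤ cA4 b0 ^ 4 := by rw [hcB]; exact min_le_left _ _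
  have hcirc : ∀ s : ℕ, n1 ≤ s → ∀ p q : ℤ, cB ≤ (ppw Q hQ).p (Ann p q (2 * (s : ℤ))) :=
    fun s hs p q => hcB4.trans
      (circ_edge hQ hb0p hb0.le (by omega) (hal s hs) p q)
  refine ⟨max (2 / cB ^ NN0) (20 * n1 / g1), le_trans ?_ (le_max_left _ _), fun j => ?_⟩
  · exact div_nonneg (by norm_num) (pow_nonneg hcB0.le _)
  · by_cases hj : 20 * n1 ≤ 2 ^ j
    · refine HB.mono (le_max_left _ _) ?_
      refine HB_star hQ hcB0 hcB1 (a := n1) (t := 2 ^ j) (by omega)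
        (fun s h1 _ => hcirc s h1) hj (by omega)
    · push Not at hj
      refine (hHB1 j).mono (le_trans ?_ (le_max_right _ _))
      refine div_le_div_of_nonneg_right ?_ hg1.le
      exact_mod_cast hj.le

/-- **The a priori bounds hold at all scales.** -/
theorem all_HB (hQ : 1 ≤ Q) (hblk : ∀ C, ∃ k J0 : ℕ, 8 ≤ k ∧ Blk Q k J0 C) :
    ∃ H : ℝ, 0 ≤ H ∧ ∀ j, HB Q j H := by
  obtain ⟨g1, hg1, hHB1⟩ := exists_HB hQ
  obtain ⟨c, hc⟩ : ∃ c : ℝ, c = min (min (cA4 cc2 ^ 4) cc2) 1 := ⟨_, rfl⟩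
  have hc0 : 0 < c := by
    rw [hc]
    exact lt_min (lt_min (pow_pos (cA4_pos cc2_pos) 4) cc2_pos) one_pos
  have hc1 : c ≤ 1 := by rw [hc]; exact min_le_right _ _
  have hcA : c ≤ cA4 cc2 ^ 4 := by rw [hc]; exact (min_le_left _ _).trans (min_le_left _ _)
  have hc2 : c ≤ cc2 := by rw [hc]; exact (min_le_left _ _).trans (min_le_right _ _)
  obtain ⟨gs, hgs⟩ : ∃ gs : ℝ, gs = c ^ NN0 := ⟨_, rfl⟩
  obtain ⟨hs, hhs⟩ : ∃ hs : ℝ, hs = 2 / gs := ⟨_, rfl⟩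
  obtain ⟨k, J0, hk, hb⟩ := hblk (4 / 3 * (1 + hs))
  obtain ⟨m, hm1, hm⟩ : ∃ m : ℕ, 1 ≤ m ∧ ((2 : ℝ) / 3) ^ m < 1 / 2 / 4 := by
    obtain ⟨m, hm⟩ := exists_pow_lt_of_lt_one (show (0 : ℝ) < 1 / 2 / 4 by norm_num)
      (show (2 : ℝ) / 3 < 1 by norm_num)
    refine ⟨m + 1, by omega, lt_of_le_of_lt ?_ hm⟩
    exact pow_le_pow_of_le_one (by norm_num) (by norm_num) (by omega)
  obtain ⟨n1, hn1⟩ : ∃ n1 : ℕ, n1 = max (2 ^ J0) 12 := ⟨_, rfl⟩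
  have hn1a : 2 ^ J0 ≤ n1 := by rw [hn1]; exact le_max_left _ _
  have hn1b : 12 ≤ n1 := by rw [hn1]; exact le_max_right _ _
  by_cases hex : ∃ n, n1 ≤ n ∧ (ppw Q hQ).Good (1 / 2) n
  · obtain ⟨n0, hn0, hg0⟩ := hex
    exact all_HB_good hQ hg1 hHB1 hc0 hc1 hcA hc2 hgs hhs hk hb hm1 hm (hn1a.trans hn0)
      (hn1b.trans hn0) hg0
  · push Not at hex
    exact all_HB_bad hQ hg1 hHB1 hn1b hex

/-! ### Conclusion -/

/-- Translation of arms. -/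
theorem arm_tr {p x : ℤ × ℤ} {r R : ℤ} (hp : Even (p.1 + p.2)) {ω : Cfg}
    (h : ArmPx (x.1 + p.1, x.2 + p.2) r R ω) :
    ArmPx x r R (ω ∘ fun v => (v.1 + p.1, v.2 + p.2)) := by
  obtain ⟨u, v, h1, h2, h3, h0, h4⟩ := h
  have hnm : ∀ w : ℤ × ℤ, nm ((w.1 - p.1, w.2 - p.2) - x) = nm (w - (x.1 + p.1, x.2 + p.2)) := by
    intro w
    unfold nm
    simp only [Prod.fst_sub, Prod.snd_sub]
    congr 2 <;> ring
  refine ⟨(u.1 - p.1, u.2 - p.2), (v.1 - p.1, v.2 - p.2), ?_, ?_, ?_, ?_, ?_⟩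
  · rw [Int.even_iff] at *
    dsimp only
    omega
  · rw [hnm]; exact h2
  · rw [hnm]; exact h3
  · show nm _ ≤ R
    rw [hnm]; exact h0
  · clear h3
    induction h4 with
    | refl => exact ReflTransGen.refl
    | @tail a b _ hab ih =>
      refine ih.tail ⟨⟨?_, ?_, ?_⟩, ?_⟩
      · have := hab.1.1; dsimp only; omega
      · have := hab.1.2.1; dsimp only; omega
      · show ω _ = true
        have h5 : ω (min a.1 b.1, min a.2 b.2) = true := hab.1.2.2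
        rw [← h5]
        congr 1
        ext <;> dsimp only <;> omega
      · show nm _ ≤ R
        rw [hnm]; exact hab.2

theorem pr_tr (hQ : 0 < Q) {p x : ℤ × ℤ} (hp : Even (p.1 + p.2)) (r R N : ℤ) :
    Pr Q (Bq (x.1 + p.1, x.2 + p.2) N) eta1 {ω | ArmPx (x.1 + p.1, x.2 + p.2) r R ω} ≤
      Pr Q (Bq x N) eta1 {ω | ArmPx x r R ω} := by
  have h1 := (sy_tr p hp).2 Q (Bq x N) eta1 ({ω | ArmPx x r R ω}.indicator 1) hQ f_good.2.2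
  have e : (Bq x N).image (fun v : ℤ × ℤ => (v.1 + p.1, v.2 + p.2)) =
      Bq (x.1 + p.1, x.2 + p.2) N := by
    ext v
    rw [Finset.mem_image]
    constructor
    · rintro ⟨w, hw, rfl⟩
      simp only [Bq, Finset.mem_product, Finset.mem_Ico] at hw ⊢
      omega
    · intro hv
      refine ⟨(v.1 - p.1, v.2 - p.2), ?_, by simp⟩
      simp only [Bq, Finset.mem_product, Finset.mem_Ico] at hv ⊢
      omega
  rw [e] at h1
  have h2 : Pr Q (Bq x N) eta1 {ω | ArmPx x r R ω} = Pr Q (Bq (x.1 + p.1, x.2 + p.2) N) eta1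
      {ω | (ω ∘ fun v => (v.1 + p.1, v.2 + p.2)) ∈ {ω | ArmPx x r R ω}} := h1
  rw [h2]
  exact Pr_mono hQ fun ω hω => arm_tr hp hω

theorem rsw_of_blk (hQ : 1 ≤ Q) {k J0 : ℕ} (hk : 8 ≤ k)
    (h : ∀ J : ℕ, J0 ≤ J → Pr Q (Bq (1, 0) (2 ^ (J + k))) eta1
      {ω | ArmPx (1, 0) (2 ^ (J + 2)) (2 ^ (J + k)) ω} ≤ 2 / 3) : RSW Q := by
  have hQ0 : 0 < Q := by linarith
  have key : ∀ (x : ℤ × ℤ) (r : ℤ), 1 ≤ r →
      Pr Q (Bq x ((2 ^ (J0 + k) + 1) * r)) eta1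
        {ω | ArmPx x r ((2 ^ (J0 + k) + 1) * r) ω} ≤ 1 - 1 / 3 := by
    intro x r hr
    obtain ⟨r', rfl⟩ : ∃ r' : ℕ, r = r' := ⟨r.toNat, by omega⟩
    have hr' : r' ≠ 0 := by omega
    set L := Nat.log 2 r' with hL
    have hL1 : 2 ^ L ≤ r' := Nat.pow_log_le_self 2 hr'
    have hL2 : r' < 2 ^ (L + 1) := Nat.lt_pow_succ_log_self (by norm_num) r'
    have hL1' : (2 : ℤ) ^ L ≤ r' := by exact_mod_cast hL1
    have hL2' : (r' : ℤ) < 2 ^ (L + 1) := by exact_mod_cast hL2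
    have h1 := h (J0 + L) (by omega)
    -- the centre
    obtain ⟨x', hx', hxx⟩ : ∃ x' : ℤ × ℤ, Odd (x'.1 + x'.2) ∧ (x' = x ∨ x' = (x.1 + 1, x.2)) := by
      by_cases hx : Odd (x.1 + x.2)
      · exact ⟨x, hx, Or.inl rfl⟩
      · refine ⟨(x.1 + 1, x.2), ?_, Or.inr rfl⟩
        rw [Int.odd_iff] at *
        dsimp only
        omega
    have h2 : Pr Q (Bq x' (2 ^ (J0 + L + k))) eta1
        {ω | ArmPx x' (2 ^ (J0 + L + 2)) (2 ^ (J0 + L + k)) ω} ≤ 2 / 3 := by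
      have h3 := pr_tr (Q := Q) hQ0 (p := (x'.1 - 1, x'.2)) (x := (1, 0))
        (by rw [Int.even_iff]; rw [Int.odd_iff] at hx'; dsimp only; omega)
        (2 ^ (J0 + L + 2)) (2 ^ (J0 + L + k)) (2 ^ (J0 + L + k))
      have e : (((1, 0) : ℤ × ℤ).1 + (x'.1 - 1, x'.2).1, ((1, 0) : ℤ × ℤ).2 + (x'.1 - 1, x'.2).2) =
          x' := by
        ext <;> simp
      rw [e] at h3
      exact h3.trans h1
    have ebig : (2 : ℤ) ^ (J0 + L + k) = 2 ^ (J0 + k) * 2 ^ L := by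
      rw [← pow_add]; congr 1; ring
    have e1 : (2 : ℤ) ^ (J0 + L + k) ≤ (2 ^ (J0 + k) + 1) * r' - 1 := by
      rw [ebig]
      have : (0 : ℤ) < 2 ^ (J0 + k) := by positivity
      nlinarith
    have e2 : (r' : ℤ) + 1 ≤ 2 ^ (J0 + L + 2) := by
      have h4 : (2 : ℤ) ^ (L + 2) ≤ 2 ^ (J0 + L + 2) := pow_le_pow_right₀ (by norm_num) (by omega)
      have h5 : (2 : ℤ) ^ (L + 2) = 2 ^ (L + 1) + 2 ^ (L + 1) := by ring
      have h6 : (1 : ℤ) ≤ 2 ^ (L + 1) := one_le_pow₀ (by norm_num)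
      linarith
    have e3 : (2 : ℤ) ^ (J0 + L + 2) ≤ 2 ^ (J0 + L + k) :=
      pow_le_pow_right₀ (by norm_num) (by omega)
    have hnm : ∀ u : ℤ × ℤ, nm (u - x') ≤ nm (u - x) + 1 ∧ nm (u - x) ≤ nm (u - x') + 1 := by
      intro u
      have a1 := nm_le_iff.1 (le_refl (nm (u - x)))
      have a2 := nm_le_iff.1 (le_refl (nm (u - x')))
      simp only [Prod.fst_sub, Prod.snd_sub] at a1 a2
      constructor
      · rw [nm_le_iff]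
        simp only [Prod.fst_sub, Prod.snd_sub]
        rcases hxx with h | h <;> rw [h] at a2 ⊢ <;> (try dsimp only at a2 ⊢) <;> omega
      · rw [nm_le_iff]
        simp only [Prod.fst_sub, Prod.snd_sub]
        rcases hxx with h | h <;> rw [h] at a2 ⊢ <;> (try dsimp only at a2 ⊢) <;> omega
    have h5 : Pr Q (Bq x ((2 ^ (J0 + k) + 1) * r')) eta1
        {ω | ArmPx x r' ((2 ^ (J0 + k) + 1) * r') ω} ≤
        Pr Q (Bq x ((2 ^ (J0 + k) + 1) * r')) eta1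
        {ω | ArmPx x' (2 ^ (J0 + L + 2)) (2 ^ (J0 + L + k)) ω} := by
      refine Pr_mono hQ0 ?_
      rintro ω ⟨u, v, a1, a2, a3, a4⟩
      show ArmPx _ _ _ _
      rw [armPx_iff e3]
      refine ⟨u, v, a1, ?_, ?_, rtg_of_pconn a4⟩
      · have := (hnm u).1
        linarith
      · have := (hnm v).2
        linarith
    refine h5.trans ((wired_mono hQ ?_ (inc_arm _ _ _)).trans (h2.trans (by norm_num)))
    intro v hv
    simp only [Bq, Finset.mem_product, Finset.mem_Ico] at hv ⊢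
    rcases hxx with h | h <;> rw [h] at hv <;> (try dsimp only at hv) <;> omega
  refine ⟨2 ^ (J0 + k) + 1, 1 / 3, ?_, by norm_num, fun x r hr => ⟨key x r hr, ?_⟩⟩
  · have : (1 : ℤ) ≤ 2 ^ (J0 + k) := one_le_pow₀ (by norm_num)
    linarith
  · rw [← pr_wired_arm hQ0]
    exact key (sh x) r hr

/-- **K.14.** -/
theorem k_tas (hb : K_blk) : K_rsw := by
  intro θ h0 h1
  have hcos : 1 / 2 ≤ Real.cos θ := by
    rw [← Real.cos_pi_div_three]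
    exact Real.cos_le_cos_of_nonneg_of_le_pi h0 (by linarith [Real.pi_pos]) h1
  have hQ : 1 ≤ 2 * Real.cos θ := by linarith
  obtain ⟨H, hH0, hH⟩ := all_HB hQ fun C => blk_of hb h0 h1 C
  obtain ⟨k, J0, hk, hblk⟩ := blk_of hb h0 h1 (4 / 3 * H)
  refine rsw_of_blk (J0 := J0) hQ hk fun J hJ => ?_
  have hsum : ∀ J : ℕ, ∑ j ∈ Finset.range (J + 1), (4 : ℝ) ^ j / 4 ^ J * H ≤ 4 / 3 * H := by
    intro J
    have h4J : (0 : ℝ) < 4 ^ J := by positivity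
    rw [← Finset.sum_mul, ← Finset.sum_div]
    refine mul_le_mul_of_nonneg_right ?_ hH0
    rw [div_le_iff₀ h4J]
    exact geo_sum J
  exact hblk (fun _ => H) hH J hJ (hsum J) (hsum (J + k))

end Vale.Agent.P167.FKA
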