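import Vale.Agent.P167.FKA.All
import Vale.Agent.P167.H871.Inst

/-!
# P167, block K.14: the wired random-cluster measure of the plane as a functional on events
-/

namespace Vale.Agent.P167.FKA

open Finset Filter Topology MeasureTheory Vale.Agent.P167.FK
open Vale.Agent.P145.FB (PStep PConn PP IL Inc LRc Ann)
open Vale.Agent.P167.H259 (f_markov f_fkg f_comp f_comp2)
open Vale.Agent.P167.H871 (SB SB_mono vx px eSh eRx eRy eSw)
open Relation

/-! ### Symmetries -/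

/-- Symmetry of the model. -/
def IsSy (τ : ℤ × ℤ → ℤ × ℤ) : Prop := (∀ ω, Good ω → Good (ω ∘ τ)) ∧
  ∀ (Q : ℝ) (D : Finset (ℤ × ℤ)) (η : Cfg) (F : Cfg → ℝ), 0 < Q → Good η →
    Ex Q D (η ∘ τ) F = Ex Q (D.image τ) η (fun ω => F (ω ∘ τ))

theorem IsSy.comp {τ σ : ℤ × ℤ → ℤ × ℤ} (hτ : IsSy τ) (hσ : IsSy σ) : IsSy (τ ∘ σ) := by
  refine ⟨fun ω h => hσ.1 _ (hτ.1 ω h), fun Q D η F hQ hη => ?_⟩
  have h1 := hσ.2 Q D (η ∘ τ) F hQ (hτ.1 η hη)
  have h2 := hτ.2 Q (D.image σ) η (fun ω => F (ω ∘ σ)) hQ hη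
  rw [Finset.image_image] at h2
  exact h1.trans h2

theorem sy_tr (p : ℤ × ℤ) (hp : Even (p.1 + p.2)) : IsSy (fun v => (v.1 + p.1, v.2 + p.2)) :=
  sym_of (trV p) (fun _ => rfl) (trE p) fun ω => (syP_tr p hp ω).sy

theorem sy_rx : IsSy (fun v => (-1 - v.1, v.2)) := f_sym _ (by simp [syms])

theorem sy_ry : IsSy (fun v => (v.1, -1 - v.2)) := f_sym _ (by simp [syms])

theorem sy_sw : IsSy (fun v => (v.2, v.1)) := f_sym _ (by simp [syms])

theorem sy_eSh (a b : ℤ) : IsSy (eSh a b) := by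
  have h := sy_tr (a + b, a - b) (by rw [Int.even_iff]; dsimp only; omega)
  exact h

theorem sy_eRy : IsSy eRy := sy_sw

theorem sy_eSw : IsSy eSw := by
  have h := (sy_tr (0, 2) (by decide)).comp sy_ry
  have e : (eSw : ℤ × ℤ → ℤ × ℤ) = (fun v => (v.1 + (0, 2).1, v.2 + (0, 2).2)) ∘
      (fun v : ℤ × ℤ => (v.1, -1 - v.2)) := by
    funext v
    simp only [eSw, Equiv.coe_fn_mk, Function.comp, Prod.mk.injEq]
    constructor <;> ring
  rw [e]
  exact h

theorem sy_eRx : IsSy eRx := by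
  have h := (sy_tr (2, 2) (by decide)).comp ((sy_rx.comp sy_ry).comp sy_sw)
  have e : (eRx : ℤ × ℤ → ℤ × ℤ) = (fun v => (v.1 + (2, 2).1, v.2 + (2, 2).2)) ∘
      (((fun v : ℤ × ℤ => (-1 - v.1, v.2)) ∘ (fun v : ℤ × ℤ => (v.1, -1 - v.2))) ∘
        (fun v : ℤ × ℤ => (v.2, v.1))) := by
    funext v
    simp only [eRx, Equiv.coe_fn_mk, Function.comp, Prod.mk.injEq]
    constructor <;> ring
  rw [e]
  exact h

/-! ### Monotonicity in the domain -/

variable {Q : ℝ}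

/-- Comparison with the wired measure of a smaller domain. -/
theorem le_wired (hQ : 1 ≤ Q) {D D' : Finset (ℤ × ℤ)} (h : D ⊆ D') {η : Cfg} (hη : Good η)
    {A : Set Cfg} (hA : IncS A) : Pr Q D' η A ≤ Pr Q D eta1 A := by
  have hQ0 : 0 < Q := by linarith
  unfold Pr
  rw [f_markov Q D D' η _ hQ0 h hη, ← Ex_const (Q := Q) (D := D') (η := η) hQ0
    (Ex Q D eta1 (A.indicator 1))]
  refine Ex_mono hQ0 fun S _ => ?_
  exact f_comp Q D _ eta1 _ hQ (f_good.1 _ _ _ hη) f_good.2.2 (fun _ _ => rfl) hA.incF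

/-- Comparison with the free measure of a smaller domain. -/
theorem free_le (hQ : 1 ≤ Q) {D D' : Finset (ℤ × ℤ)} (h : D ⊆ D') {η : Cfg} (hη : Good η)
    {A : Set Cfg} (hA : IncS A) : Pr Q D eta0 A ≤ Pr Q D' η A := by
  have hQ0 : 0 < Q := by linarith
  unfold Pr
  rw [f_markov Q D D' η _ hQ0 h hη, ← Ex_const (Q := Q) (D := D') (η := η) hQ0
    (Ex Q D eta0 (A.indicator 1))]
  refine Ex_mono hQ0 fun S _ => ?_
  refine f_comp Q D eta0 _ _ hQ f_good.2.1 (f_good.1 _ _ _ hη) (fun v hv => ?_) hA.incF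
  exact absurd hv (by simp [eta0])

theorem wired_mono (hQ : 1 ≤ Q) {D D' : Finset (ℤ × ℤ)} (h : D ⊆ D') {A : Set Cfg}
    (hA : IncS A) : Pr Q D' eta1 A ≤ Pr Q D eta1 A := le_wired hQ h f_good.2.2 hA

theorem free_mono (hQ : 1 ≤ Q) {D D' : Finset (ℤ × ℤ)} (h : D ⊆ D') {A : Set Cfg}
    (hA : IncS A) : Pr Q D eta0 A ≤ Pr Q D' eta0 A := free_le hQ h f_good.2.1 hA

theorem Bq_mono {x : ℤ × ℤ} {a b : ℤ} (hab : a ≤ b) : Bq x a ⊆ Bq x b := by
  intro v hv
  simp only [Bq, Finset.mem_product, Finset.mem_Ico] at hv ⊢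
  omega

theorem exists_Bq (D : Finset (ℤ × ℤ)) : ∃ N : ℕ, D ⊆ Bq 0 N := by
  classical
  induction D using Finset.induction_on with
  | empty => exact ⟨0, Finset.empty_subset _⟩
  | insert v D _ ih =>
    obtain ⟨N, hN⟩ := ih
    refine ⟨N + v.1.natAbs + v.2.natAbs + 1, ?_⟩
    have e1 := le_abs_self v.1
    have e2 := le_abs_self v.2
    have e3 := neg_abs_le v.1
    have e4 := neg_abs_le v.2
    intro w hw
    rcases Finset.mem_insert.1 hw with rfl | hw
    · simp only [Bq, Finset.mem_product, Finset.mem_Ico, Prod.fst_zero, Prod.snd_zero]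
      push_cast
      omega
    · exact Bq_mono (by push_cast; have := abs_nonneg v.1; have := abs_nonneg v.2; omega) (hN hw)

/-! ### The limit functional -/

theorem exists_lim (hQ : 0 < Q) (A : Set Cfg) :
    ∃ l : ℝ, Tendsto (fun N : ℕ => Pr Q (Bq 0 N) eta1 A) (hyperfilter ℕ) (𝓝 l) := by
  have hc : IsCompact (Set.Icc (0 : ℝ) 1) := isCompact_Icc
  rw [isCompact_iff_ultrafilter_le_nhds] at hc
  obtain ⟨l, -, hl⟩ := hc ((hyperfilter ℕ).map (fun N : ℕ => Pr Q (Bq 0 N) eta1 A)) (by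
    rw [Filter.le_principal_iff]
    exact Filter.Eventually.of_forall (f := (hyperfilter ℕ : Filter ℕ))
      (p := fun N : ℕ => Pr Q (Bq 0 N) eta1 A ∈ Set.Icc (0 : ℝ) 1)
      fun N => ⟨Pr_nonneg hQ _, Pr_le_one hQ _⟩)
  exact ⟨l, hl⟩

open Classical in
/-- The wired measure of the plane (an ultrafilter limit for general events). -/
noncomputable def pw (Q : ℝ) (A : Set Cfg) : ℝ :=
  if h : 0 < Q then (exists_lim h A).choose else 0

theorem pw_tendsto (hQ : 0 < Q) (A : Set Cfg) :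
    Tendsto (fun N : ℕ => Pr Q (Bq 0 N) eta1 A) (hyperfilter ℕ) (𝓝 (pw Q A)) := by
  unfold pw
  rw [dif_pos hQ]
  exact (exists_lim hQ A).choose_spec

theorem pw_nonneg (hQ : 0 < Q) (A : Set Cfg) : 0 ≤ pw Q A :=
  ge_of_tendsto' (pw_tendsto hQ A) fun _ => Pr_nonneg hQ _

theorem pw_le_one (hQ : 0 < Q) (A : Set Cfg) : pw Q A ≤ 1 :=
  le_of_tendsto' (pw_tendsto hQ A) fun _ => Pr_le_one hQ _

theorem pw_mono (hQ : 0 < Q) {A B : Set Cfg} (h : A ⊆ B) : pw Q A ≤ pw Q B :=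
  le_of_tendsto_of_tendsto' (pw_tendsto hQ A) (pw_tendsto hQ B) fun _ => Pr_mono hQ h

theorem Pr_union_le (hQ : 0 < Q) {D : Finset (ℤ × ℤ)} {η : Cfg} (A B : Set Cfg) :
    Pr Q D η (A ∪ B) ≤ Pr Q D η A + Pr Q D η B := by
  unfold Pr
  rw [← Ex_add]
  refine Ex_mono hQ fun S _ => ?_
  by_cases h : cf D η S ∈ A
  · have h2 : cf D η S ∈ A ∪ B := Or.inl h
    rw [Set.indicator_of_mem h, Set.indicator_of_mem h2]
    have := ind_nonneg B (cf D η S)
    linarith
  · by_cases h' : cf D η S ∈ B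
    · have h2 : cf D η S ∈ A ∪ B := Or.inr h'
      rw [Set.indicator_of_mem h', Set.indicator_of_mem h2]
      have := ind_nonneg A (cf D η S)
      linarith
    · have h2 : cf D η S ∉ A ∪ B := fun h2 => h2.elim h h'
      rw [Set.indicator_of_notMem h2]
      have := ind_nonneg A (cf D η S)
      have := ind_nonneg B (cf D η S)
      linarith

theorem pw_union_le (hQ : 0 < Q) (A B : Set Cfg) : pw Q (A ∪ B) ≤ pw Q A + pw Q B :=
  le_of_tendsto_of_tendsto' (pw_tendsto hQ _) ((pw_tendsto hQ A).add (pw_tendsto hQ B))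
    fun _ => Pr_union_le hQ A B

theorem fkg_inc2 (hQ : 1 ≤ Q) {D : Finset (ℤ × ℤ)} {η : Cfg} (hη : Good η) {A B : Set Cfg}
    (hA : IncS A) (hB : IncS B) : Pr Q D η A * Pr Q D η B ≤ Pr Q D η (A ∩ B) := by
  have h := f_fkg Q D η _ _ hQ hη hA.incF hB.incF
  refine h.trans (le_of_eq ?_)
  exact Ex_congr fun S _ => by rw [ind_inter]

theorem pw_fkg (hQ : 1 ≤ Q) {A B : Set Cfg} (hA : IncS A) (hB : IncS B) :
    pw Q A * pw Q B ≤ pw Q (A ∩ B) := by
  have hQ0 : 0 < Q := by linarith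
  exact le_of_tendsto_of_tendsto' ((pw_tendsto hQ0 A).mul (pw_tendsto hQ0 B)) (pw_tendsto hQ0 _)
    fun _ => fkg_inc2 hQ f_good.2.2 hA hB

/-- For increasing events this is the limit along all boxes. -/
theorem pw_tendsto_inc (hQ : 1 ≤ Q) {A : Set Cfg} (hA : IncS A) :
    Tendsto (fun N : ℕ => Pr Q (Bq 0 N) eta1 A) atTop (𝓝 (pw Q A)) := by
  have hQ0 : 0 < Q := by linarith
  have hanti : Antitone (fun N : ℕ => Pr Q (Bq 0 N) eta1 A) := fun a b hab =>
    wired_mono hQ (Bq_mono (by exact_mod_cast hab)) hA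
  have hbdd : BddBelow (Set.range (fun N : ℕ => Pr Q (Bq 0 N) eta1 A)) := ⟨0, by
    rintro _ ⟨N, rfl⟩
    exact Pr_nonneg hQ0 _⟩
  have h1 := tendsto_atTop_ciInf hanti hbdd
  have h2 : Tendsto (fun N : ℕ => Pr Q (Bq 0 N) eta1 A) (hyperfilter ℕ) _ :=
    h1.mono_left Nat.hyperfilter_le_atTop
  have h3 := tendsto_nhds_unique h2 (pw_tendsto hQ0 A)
  rw [← h3]
  exact h1

theorem pw_le (hQ : 1 ≤ Q) {A : Set Cfg} (hA : IncS A) (D : Finset (ℤ × ℤ)) :
    pw Q A ≤ Pr Q D eta1 A := by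
  obtain ⟨N, hN⟩ := exists_Bq D
  refine le_of_tendsto (pw_tendsto_inc hQ hA) ((eventually_ge_atTop N).mono fun M hM => ?_)
  exact wired_mono hQ (hN.trans (Bq_mono (by exact_mod_cast hM))) hA

theorem IncS.comp {A : Set Cfg} (hA : IncS A) (τ : ℤ × ℤ → ℤ × ℤ) : IncS {ω : Cfg | ω ∘ τ ∈ A} :=
  fun ω ω' h h' => hA (ω ∘ τ) (ω' ∘ τ) (fun v => h (τ v)) h'

theorem pw_sy_le (hQ : 1 ≤ Q) {τ : ℤ × ℤ → ℤ × ℤ} (hτ : IsSy τ) {c : ℕ}
    (hc : ∀ N : ℕ, (Bq 0 (N : ℤ)).image τ ⊆ Bq 0 ((N + c : ℕ) : ℤ)) {A : Set Cfg} (hA : IncS A) :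
    pw Q {ω : Cfg | ω ∘ τ ∈ A} ≤ pw Q A := by
  have hQ0 : 0 < Q := by linarith
  have h1 := (pw_tendsto_inc hQ (hA.comp τ)).comp (tendsto_add_atTop_nat c)
  refine le_of_tendsto_of_tendsto' h1 (pw_tendsto_inc hQ hA) fun N => ?_
  have h2 := hτ.2 Q (Bq 0 N) eta1 (A.indicator 1) hQ0 f_good.2.2
  have h3 : Pr Q ((Bq 0 (N : ℤ)).image τ) eta1 {ω : Cfg | ω ∘ τ ∈ A} =
      Pr Q (Bq 0 (N : ℤ)) eta1 A := h2.symm
  rw [← h3]
  exact wired_mono hQ (hc N) (hA.comp τ)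

theorem pw_sy (hQ : 1 ≤ Q) {τ σ : ℤ × ℤ → ℤ × ℤ} (hτ : IsSy τ) (hσ : IsSy σ)
    (hτσ : ∀ v, σ (τ v) = v) {c : ℕ}
    (hc : ∀ N : ℕ, (Bq 0 (N : ℤ)).image τ ⊆ Bq 0 ((N + c : ℕ) : ℤ))
    (hc' : ∀ N : ℕ, (Bq 0 (N : ℤ)).image σ ⊆ Bq 0 ((N + c : ℕ) : ℤ)) {A : Set Cfg}
    (hA : IncS A) : pw Q {ω : Cfg | ω ∘ τ ∈ A} = pw Q A := by
  refine le_antisymm (pw_sy_le hQ hτ hc hA) ?_
  have h := pw_sy_le hQ hσ hc' (hA.comp τ)
  have e : {ω : Cfg | ω ∘ σ ∈ {ω : Cfg | ω ∘ τ ∈ A}} = A := by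
    ext ω
    simp only [Set.mem_ofPred_eq]
    have : (ω ∘ σ) ∘ τ = ω := by
      funext v
      simp only [Function.comp, hτσ]
    rw [this]
  rwa [e] at h

/-- Transport of a symmetry of the fine lattice to the squares. -/
theorem SB_sym (g : ℤ × ℤ → ℤ × ℤ) (e : ℤ × ℤ → ℤ × ℤ)
    (hg : ∀ p : ℤ × ℤ, Odd (p.1 + p.2) → vx (g p) = e (vx p))
    (ho : ∀ z : ℤ × ℤ, Odd ((g z).1 + (g z).2) ↔ Odd (z.1 + z.2))
    (he : ∀ z : ℤ × ℤ, (Even (g z).1 ∧ Even (g z).2) ↔ (Even z.1 ∧ Even z.2)) (o : Cfg) :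
    {z | g z ∈ SB o} = SB (o ∘ e) := by
  ext z
  simp only [SB, Set.mem_ofPred_eq, he z, ho z, Function.comp]
  constructor
  · rintro (h | ⟨h1, h2⟩)
    · exact Or.inl h
    · exact Or.inr ⟨h1, by rw [← hg z h1]; exact h2⟩
  · rintro (h | ⟨h1, h2⟩)
    · exact Or.inl h
    · exact Or.inr ⟨h1, by rw [hg z h1]; exact h2⟩

theorem incS_of_IL {E : Set (ℤ × ℤ) → Prop} (hE : IL E) : IncS {o : Cfg | E (SB o)} :=
  fun _ _ ho h => hE.1 _ _ (SB_mono ho) h

theorem image_sub {τ : ℤ × ℤ → ℤ × ℤ} {c : ℕ}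
    (h : ∀ v : ℤ × ℤ, ∀ N : ℤ, -N ≤ v.1 → v.1 < N → -N ≤ v.2 → v.2 < N →
      -(N + c) ≤ (τ v).1 ∧ (τ v).1 < N + c ∧ -(N + c) ≤ (τ v).2 ∧ (τ v).2 < N + c) (N : ℕ) :
    (Bq 0 (N : ℤ)).image τ ⊆ Bq 0 ((N + c : ℕ) : ℤ) := by
  intro w hw
  obtain ⟨v, hv, rfl⟩ := Finset.mem_image.1 hw
  simp only [Bq, Finset.mem_product, Finset.mem_Ico, Prod.fst_zero, Prod.snd_zero] at hv ⊢
  have := h v N (by omega) (by omega) (by omega) (by omega)
  push_cast
  omega

/-- The wired random-cluster measure as a percolation of the fine lattice. -/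
noncomputable def ppw (Q : ℝ) (hQ : 1 ≤ Q) : PP :=
  have hQ0 : 0 < Q := by linarith
  { p := fun E => pw Q {o | E (SB o)}
    nonneg := fun _ => pw_nonneg hQ0 _
    le_one := fun _ => pw_le_one hQ0 _
    mono := fun E R h => pw_mono hQ0 (fun x hx => h _ hx)
    or_le := fun E R => pw_union_le hQ0 {o | E (SB o)} {o | R (SB o)}
    fkg := fun E R hE hR => pw_fkg hQ (incS_of_IL hE) (incS_of_IL hR)
    shift := by
      intro a b E hE
      have e : {o : Cfg | E {z | (z.1 + 2 * a, z.2 + 2 * b) ∈ SB o}} =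
          {o : Cfg | o ∘ (eSh a b) ∈ {o | E (SB o)}} := by
        ext o
        simp only [Set.mem_ofPred_eq]
        rw [SB_sym (fun z => (z.1 + 2 * a, z.2 + 2 * b)) (eSh a b)]
        · rintro ⟨x, y⟩ h
          rw [Int.odd_iff] at h
          simp only [vx, eSh, Equiv.coe_fn_mk, Prod.mk.injEq] at h ⊢
          constructor <;> omega
        · rintro ⟨x, y⟩; simp only [Int.odd_iff]; omega
        · rintro ⟨x, y⟩; simp only [Int.even_iff]; omega
      rw [e]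
      refine pw_sy hQ (sy_eSh a b) (σ := eSh (-a) (-b)) (sy_eSh (-a) (-b))
        (c := 2 * (a.natAbs + b.natAbs)) ?_ (fun N => image_sub ?_ N) (fun N => image_sub ?_ N)
        (incS_of_IL hE)
      · rintro ⟨x, y⟩
        simp only [eSh, Equiv.coe_fn_mk, Prod.mk.injEq]
        constructor <;> ring
      · rintro ⟨x, y⟩ N
        have e1 := le_abs_self a
        have e2 := le_abs_self b
        have e3 := neg_abs_le a
        have e4 := neg_abs_le b
        simp only [eSh, Equiv.coe_fn_mk]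
        push_cast
        omega
      · rintro ⟨x, y⟩ N
        have e1 := le_abs_self a
        have e2 := le_abs_self b
        have e3 := neg_abs_le a
        have e4 := neg_abs_le b
        simp only [eSh, Equiv.coe_fn_mk]
        push_cast
        omega
    reflx := by
      intro E hE
      have e : {o : Cfg | E {z | (-z.1, z.2) ∈ SB o}} =
          {o : Cfg | o ∘ eRx ∈ {o | E (SB o)}} := by
        ext o
        simp only [Set.mem_ofPred_eq]
        rw [SB_sym (fun z => (-z.1, z.2)) eRx]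
        · rintro ⟨x, y⟩ h
          rw [Int.odd_iff] at h
          simp only [vx, eRx, Equiv.coe_fn_mk, Prod.mk.injEq] at h ⊢
          constructor <;> omega
        · rintro ⟨x, y⟩; simp only [Int.odd_iff]; omega
        · rintro ⟨x, y⟩; simp only [Int.even_iff]; omega
      rw [e]
      refine pw_sy hQ sy_eRx (σ := eRx) sy_eRx (c := 2) ?_ (fun N => image_sub ?_ N)
        (fun N => image_sub ?_ N) (incS_of_IL hE)
      · rintro ⟨x, y⟩
        simp only [eRx, Equiv.coe_fn_mk, Prod.mk.injEq]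
        constructor <;> ring
      · rintro ⟨x, y⟩ N
        simp only [eRx, Equiv.coe_fn_mk]
        push_cast
        omega
      · rintro ⟨x, y⟩ N
        simp only [eRx, Equiv.coe_fn_mk]
        push_cast
        omega
    refly := by
      intro E hE
      have e : {o : Cfg | E {z | (z.1, -z.2) ∈ SB o}} =
          {o : Cfg | o ∘ eRy ∈ {o | E (SB o)}} := by
        ext o
        simp only [Set.mem_ofPred_eq]
        rw [SB_sym (fun z => (z.1, -z.2)) eRy]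
        · rintro ⟨x, y⟩ h
          rw [Int.odd_iff] at h
          simp only [vx, eRy, Equiv.coe_fn_mk, Prod.mk.injEq] at h ⊢
          constructor <;> omega
        · rintro ⟨x, y⟩; simp only [Int.odd_iff]; omega
        · rintro ⟨x, y⟩; simp only [Int.even_iff]; omega
      rw [e]
      refine pw_sy hQ sy_eRy (σ := eRy) sy_eRy (c := 2) ?_ (fun N => image_sub ?_ N)
        (fun N => image_sub ?_ N) (incS_of_IL hE)
      · rintro ⟨x, y⟩
        rfl
      · rintro ⟨x, y⟩ N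
        simp only [eRy, Equiv.coe_fn_mk]
        push_cast
        omega
      · rintro ⟨x, y⟩ N
        simp only [eRy, Equiv.coe_fn_mk]
        push_cast
        omega
    swap := by
      intro E hE
      have e : {o : Cfg | E {z | (z.2, z.1) ∈ SB o}} =
          {o : Cfg | o ∘ eSw ∈ {o | E (SB o)}} := by
        ext o
        simp only [Set.mem_ofPred_eq]
        rw [SB_sym (fun z => (z.2, z.1)) eSw]
        · rintro ⟨x, y⟩ h
          rw [Int.odd_iff] at h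
          simp only [vx, eSw, Equiv.coe_fn_mk, Prod.mk.injEq] at h ⊢
          constructor <;> omega
        · rintro ⟨x, y⟩; simp only [Int.odd_iff]; omega
        · rintro ⟨x, y⟩; simp only [Int.even_iff]; omega
      rw [e]
      refine pw_sy hQ sy_eSw (σ := eSw) sy_eSw (c := 2) ?_ (fun N => image_sub ?_ N)
        (fun N => image_sub ?_ N) (incS_of_IL hE)
      · rintro ⟨x, y⟩
        simp only [eSw, Equiv.coe_fn_mk, Prod.mk.injEq, true_and]
        ring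
      · rintro ⟨x, y⟩ N
        simp only [eSw, Equiv.coe_fn_mk]
        push_cast
        omega
      · rintro ⟨x, y⟩ N
        simp only [eSw, Equiv.coe_fn_mk]
        push_cast
        omega }

theorem ppw_p (hQ : 1 ≤ Q) (E : Set (ℤ × ℤ) → Prop) : (ppw Q hQ).p E = pw Q {o | E (SB o)} := rfl

end Vale.Agent.P167.FKA
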