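import Vale.Agent.P167.FKA.Wir
import Vale.Agent.P167.H871.Tr
import Vale.Agent.P167.K8.Defs

/-!
# P167, block K.14: the wired measure: squares, finite energy, arms and circuits
-/

namespace Vale.Agent.P167.FKA

open Finset Filter Topology MeasureTheory Vale.Agent.P167.FK
open Vale.Agent.P145.FB (PStep PConn PP IL Inc LRc Ann IL_LRc IL_Ann NC Hc duality)
open Vale.Agent.P167.H259 (f_markov f_fkg f_comp f_comp2)
open Vale.Agent.P167.H871 (SB SB_mono vx px eSh eRx eRy eSw pe dl_SB bond_SB)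
open Vale.Agent.P167.K8 (ArmF)
open Relation

variable {Q : ℝ}

theorem du_eta1 : du eta1 = eta0 := by
  funext v
  simp [du, eta1, eta0]

theorem du_eta0 : du eta0 = eta1 := by
  funext v
  simp [du, eta1, eta0]

theorem pr_dual (hQ : 0 < Q) {D : Finset (ℤ × ℤ)} {η : Cfg} (hη : Good η) (A : Set Cfg) :
    Pr Q (D.image sh) (du η) A = Pr Q D η {ω | du ω ∈ A} :=
  f_dual.2 Q D η (A.indicator 1) hQ hη

theorem sy_sig : IsSy (fun v => (v.1 + 2, 1 - v.2)) := by
  have h := (sy_tr (2, 2) (by decide)).comp sy_ry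
  have e : (fun v : ℤ × ℤ => (v.1 + 2, 1 - v.2)) = (fun v => (v.1 + (2, 2).1, v.2 + (2, 2).2)) ∘
      (fun v : ℤ × ℤ => (v.1, -1 - v.2)) := by
    funext v
    simp only [Function.comp, Prod.mk.injEq, true_and]
    ring
  rw [e]
  exact h

/-- The dual percolation is dominated by the primal one. -/
theorem dl_le (hQ : 1 ≤ Q) {E : Set (ℤ × ℤ) → Prop} (hE : IL E) (N : ℕ) :
    Pr Q (Bq 0 ((N + 4 : ℕ) : ℤ)) eta1 {o | E (Vale.Agent.P145.FB.dl (SB o))} ≤
      Pr Q (Bq 0 (N : ℤ)) eta1 {o | E (SB o)} := by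
  have hQ0 : 0 < Q := by linarith
  set A : Set Cfg := {o | E (SB o)} with hA
  have hAi : IncS A := incS_of_IL hE
  have e1 : {o : Cfg | E (Vale.Agent.P145.FB.dl (SB o))} =
      {o : Cfg | o ∘ (fun v : ℤ × ℤ => (v.1 + 2, 1 - v.2)) ∈ {ω | du ω ∈ A}} := by
    ext o
    simp only [hA, Set.mem_ofPred_eq]
    rw [dl_SB o (du (o ∘ fun v : ℤ × ℤ => (v.1 + 2, 1 - v.2)))]
    intro w
    simp only [du, Function.comp, pe, Equiv.coe_fn_mk]
    congr 3
    ring
  set D : Finset (ℤ × ℤ) := (Bq 0 ((N + 4 : ℕ) : ℤ)).image (fun v : ℤ × ℤ => (v.1 - 2, 1 - v.2))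
    with hD
  have e2 : D.image (fun v : ℤ × ℤ => (v.1 + 2, 1 - v.2)) = Bq 0 ((N + 4 : ℕ) : ℤ) := by
    rw [hD, Finset.image_image]
    have : ((fun v : ℤ × ℤ => (v.1 + 2, 1 - v.2)) ∘ fun v : ℤ × ℤ => (v.1 - 2, 1 - v.2)) = id := by
      funext v
      simp
    rw [this, Finset.image_id]
  have h1 := sy_sig.2 Q D eta1 ({ω | du ω ∈ A}.indicator 1) hQ0 f_good.2.2
  rw [e2] at h1
  have h2 : Pr Q (Bq 0 ((N + 4 : ℕ) : ℤ)) eta1 {o : Cfg |
      o ∘ (fun v : ℤ × ℤ => (v.1 + 2, 1 - v.2)) ∈ {ω | du ω ∈ A}} = Pr Q D eta1 {ω | du ω ∈ A} :=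
    h1.symm
  rw [e1, h2, ← pr_dual hQ0 f_good.2.2, du_eta1]
  have h3 : Pr Q (D.image sh) eta0 A ≤ Pr Q (D.image sh) eta1 A :=
    f_comp Q _ eta0 eta1 _ hQ f_good.2.1 f_good.2.2 (fun _ _ => rfl) hAi.incF
  refine h3.trans (wired_mono hQ ?_ hAi)
  intro v hv
  rw [Finset.mem_image]
  refine ⟨shi v, ?_, sh_shi v⟩
  rw [hD, Finset.mem_image]
  refine ⟨((shi v).1 + 2, 1 - (shi v).2), ?_, ?_⟩
  · simp only [Bq, shi, Finset.mem_product, Finset.mem_Ico, Prod.fst_zero, Prod.snd_zero] at hv ⊢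
    push_cast
    omega
  · ext <;> simp [shi]

theorem pr_univ (hQ : 0 < Q) {D : Finset (ℤ × ℤ)} {η : Cfg} : Pr Q D η Set.univ = 1 := by
  unfold Pr
  rw [Set.indicator_univ]
  exact Ex_const hQ 1

/-- Squares are crossed with probability at least `1 / 2`. -/
theorem sq_half_w (hQ : 1 ≤ Q) {n : ℤ} (hn : 0 ≤ n) : 1 / 2 ≤ (ppw Q hQ).L n n := by
  have hQ0 : 0 < Q := by linarith
  have h1 : (1 : ℝ) ≤ pw Q {o | LRc 0 (n + 1) 0 n (SB o)} +
      pw Q {o | LRc (0 - 1) n 0 (n + 1 - 1) (SB o)} := by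
    have ht := ((pw_tendsto_inc hQ (incS_of_IL (IL_LRc 0 (n + 1) 0 n))).comp
      (tendsto_add_atTop_nat 4)).add
      (pw_tendsto_inc hQ (incS_of_IL (IL_LRc (0 - 1) n 0 (n + 1 - 1))))
    refine ge_of_tendsto' ht fun N => ?_
    have h2 := dl_le hQ (IL_LRc (0 - 1) n 0 (n + 1 - 1)) N
    have h3 := Pr_union_le (D := Bq 0 ((N + 4 : ℕ) : ℤ)) (η := eta1) hQ0
      {o | LRc 0 (n + 1) 0 n (SB o)} {o | LRc (0 - 1) n 0 (n + 1 - 1) (Vale.Agent.P145.FB.dl (SB o))}
    have e : {o | LRc 0 (n + 1) 0 n (SB o)} ∪ {o | LRc (0 - 1) n 0 (n + 1 - 1) (Vale.Agent.P145.FB.dl (SB o))} =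
        (Set.univ : Set Cfg) := by
      ext o
      simp only [Set.mem_union, Set.mem_ofPred_eq, Set.mem_univ, iff_true]
      exact duality (bond_SB o) (by omega) hn
    rw [e, pr_univ hQ0] at h3
    show 1 ≤ Pr Q (Bq 0 ((N + 4 : ℕ) : ℤ)) eta1 {o | LRc 0 (n + 1) 0 n (SB o)} + _
    linarith
  have h2 : pw Q {o | LRc 0 (n + 1) 0 n (SB o)} = (ppw Q hQ).L (n + 1) n := rfl
  have h3 : pw Q {o | LRc (0 - 1) n 0 (n + 1 - 1) (SB o)} = (ppw Q hQ).L (n + 1) n := by
    have := (ppw Q hQ).L_eq' (0 - 1) n 0 (n + 1 - 1)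
    rw [ppw_p] at this
    rw [this]
    congr 1 <;> ring
  rw [h2, h3] at h1
  have h4 : (ppw Q hQ).L (n + 1) n ≤ (ppw Q hQ).L n n := by
    refine (ppw Q hQ).mono _ _ (fun S hS => ?_)
    exact LRc.mono 0 0 (n + 1) n 0 0 n n S le_rfl hn (by omega) le_rfl le_rfl hS
  linarith

/-! ### Finite energy -/

theorem single_ge (hQ : 1 ≤ Q) {D : Finset (ℤ × ℤ)} {η : Cfg} (hη : Good η) {v : ℤ × ℤ}
    (hv : v ∈ D) (b : Bool) : 1 / (1 + Q) ≤ Pr Q D η {ω | ω v = b} := by
  have hQ0 : 0 < Q := by linarith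
  have key : ∀ ω : Cfg, Good ω → 1 / (1 + Q) ≤ Pr Q {v} ω {ω | ω v = b} := by
    intro ω hω
    have h0 : Good (cf {v} ω ∅) := f_good.1 _ _ _ hω
    have hup : Function.update (cf {v} ω ∅) v true = cf {v} ω {v} := by
      funext w
      by_cases hw : w = v
      · subst hw; simp [cf]
      · simp [cf, hw]
    have hfl := f_flip {v} (cf {v} ω ∅) v h0 (Finset.mem_singleton_self v) (by simp [cf])
    rw [hup] at hfl
    have hL : LD {v} (cf {v} ω {v}) = LD {v} (cf {v} ω ∅) + 1 ∨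
        LD {v} (cf {v} ω {v}) + 1 = LD {v} (cf {v} ω ∅) := by
      by_cases h : PC (cf {v} ω ∅) (pa v) (pb v)
      · exact Or.inl (hfl.1 h)
      · exact Or.inr (hfl.2 h)
    have hps : ({v} : Finset (ℤ × ℤ)).powerset = {∅, {v}} := by
      ext S
      simp [Finset.subset_singleton_iff]
    have hne : (∅ : Finset (ℤ × ℤ)) ∉ ({{v}} : Finset (Finset (ℤ × ℤ))) := by
      simp [eq_comm]
    unfold Pr Ex Zq
    rw [hps, Finset.sum_insert hne, Finset.sum_singleton, Finset.sum_insert hne,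
      Finset.sum_singleton]
    generalize LD {v} (cf {v} ω ∅) = a at hL
    generalize LD {v} (cf {v} ω {v}) = c at hL
    have hpa : 0 < Q ^ a := pow_pos hQ0 _
    have hpc : 0 < Q ^ c := pow_pos hQ0 _
    have hQQ : 1 ≤ Q * Q := by nlinarith
    have hac : Q ^ a ≤ Q * Q ^ c ∧ Q ^ c ≤ Q * Q ^ a := by
      rcases hL with h | h
      · rw [h, pow_succ]
        constructor
        · nlinarith [mul_le_mul_of_nonneg_right hQQ hpa.le]
        · rw [mul_comm]
      · rw [← h, pow_succ]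
        constructor
        · rw [mul_comm]
        · nlinarith [mul_le_mul_of_nonneg_right hQQ hpc.le]
    rw [le_div_iff₀ (by positivity), div_mul_eq_mul_div, one_mul, div_le_iff₀ (by linarith)]
    cases b
    · rw [Set.indicator_of_mem (show cf {v} ω ∅ ∈ {ω : Cfg | ω v = false} by simp [cf]),
        Set.indicator_of_notMem (show cf {v} ω {v} ∉ {ω : Cfg | ω v = false} by simp [cf])]
      simp only [Pi.one_apply]
      nlinarith [hac.2]
    · rw [Set.indicator_of_notMem (show cf {v} ω ∅ ∉ {ω : Cfg | ω v = true} by simp [cf]),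
        Set.indicator_of_mem (show cf {v} ω {v} ∈ {ω : Cfg | ω v = true} by simp [cf])]
      simp only [Pi.one_apply]
      nlinarith [hac.1]
  unfold Pr
  rw [f_markov Q {v} D η _ hQ0 (Finset.singleton_subset_iff.2 hv) hη,
    ← Ex_const (Q := Q) (D := D) (η := η) hQ0 (1 / (1 + Q))]
  exact Ex_mono hQ0 fun S _ => key _ (f_good.1 _ _ _ hη)

theorem edge_pos_w (hQ : 1 ≤ Q) :
    0 < (ppw Q hQ).p (fun S => (0, 0) ∈ S ∧ (0, 1) ∈ S ∧ (0, 2) ∈ S) := by
  have hQ0 : 0 < Q := by linarith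
  rw [ppw_p]
  have h1 : {o : Cfg | o (vx (0, 1)) = true} ⊆
      {o : Cfg | (0, 0) ∈ SB o ∧ (0, 1) ∈ SB o ∧ (0, 2) ∈ SB o} := by
    intro o ho
    refine ⟨Or.inl ⟨by simp, by simp⟩, Or.inr ⟨by simp, ho⟩, Or.inl ⟨by simp, by decide⟩⟩
  refine lt_of_lt_of_le ?_ (pw_mono hQ0 h1)
  have hinc : IncS {o : Cfg | o (vx (0, 1)) = true} := fun ω ω' h h' => h _ h'
  have h2 : 1 / (1 + Q) ≤ pw Q {o : Cfg | o (vx (0, 1)) = true} := by
    refine ge_of_tendsto (pw_tendsto_inc hQ hinc) ((eventually_ge_atTop 4).mono fun N hN => ?_)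
    refine single_ge hQ f_good.2.2 ?_ true
    simp only [vx, Bq, Finset.mem_product, Finset.mem_Ico, Prod.fst_zero, Prod.snd_zero]
    omega
  have : 0 < 1 / (1 + Q) := by positivity
  linarith

/-- A priori bound at the smallest scale. -/
theorem armF_one (hQ : 1 ≤ Q) : ∃ g : ℝ, 0 < g ∧ g ≤ 1 ∧ ArmF Q 1 2 g := by
  have hQ0 : 0 < Q := by linarith
  refine ⟨(1 / (1 + Q)) ^ 16, by positivity, ?_, ?_⟩
  · refine pow_le_one₀ (by positivity) ?_
    rw [div_le_one (by linarith)]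
    linarith
  · intro x D
    have hB : (Bq x 2).card = 16 := by
      simp only [Bq, Finset.card_product, Int.card_Ico]
      have : x.1 + 2 - (x.1 - 2) = 4 := by ring
      rw [this]
      have : x.2 + 2 - (x.2 - 2) = 4 := by ring
      rw [this]
      rfl
    have h1 : ∀ v ∈ Bq x 2, 1 / (1 + Q) ≤ Pr Q D eta0 {ω | ω v = false} := by
      intro v _
      by_cases hv : v ∈ D
      · exact single_ge hQ f_good.2.1 hv false
      · have h2 : Pr Q D eta0 {ω | ω v = false} = 1 := by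
          rw [← pr_univ (Q := Q) (D := D) (η := eta0) hQ0]
          refine Ex_congr fun S _ => ?_
          rw [Set.indicator_univ, Set.indicator_of_mem]
          show cf D eta0 S v = false
          rw [cf_out hv]
          rfl
        rw [h2, div_le_one (by linarith)]
        linarith
    have h2 : (1 / (1 + Q)) ^ 16 ≤ Pr Q D eta0 (⋂ v ∈ Bq x 2, {ω | ω v = false}) := by
      refine le_trans ?_ (fkg_dec f_fkg hQ f_good.2.1 (Bq x 2) _ fun v _ => ?_)
      · rw [← hB, ← Finset.prod_const]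
        exact Finset.prod_le_prod (fun _ _ => by positivity) h1
      · intro ω ω' h h'
        show ω v = false
        by_contra hc
        have h3 : ω v = true := by simpa using hc
        have h4 := h v h3
        rw [show ω' v = false from h'] at h4
        exact absurd h4 (by simp)
    have h3 : Pr Q D eta0 (⋂ v ∈ Bq x 2, {ω | ω v = false}) ≤
        Pr Q D eta0 {ω | ArmPx x 1 2 ω}ᶜ := by
      refine Pr_mono hQ0 ?_
      intro ω hω harm
      simp only [Set.mem_iInter] at hω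
      obtain ⟨u, v, h4, h5, h6, h7, h8⟩ := harm
      rcases ReflTransGen.cases_head h8 with h9 | ⟨w, h9, -⟩
      · rw [← h9] at h6
        omega
      · have h10 := step_mem (x := x) (R := 2) h9.1 (by omega) h9.2
        have h11 := hω _ h10
        have h12 : ω (min u.1 w.1, min u.2 w.2) = true := h9.1.2.2
        rw [show ω (min u.1 w.1, min u.2 w.2) = false from h11] at h12
        exact absurd h12 (by simp)
    rw [Pr_compl hQ0] at h3
    linarith

end Vale.Agent.P167.FKA
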