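import Vale.Agent.P167.FKA.WirB
import Vale.Agent.P167.H871.Rsw

/-!
# P167, block K.14: arms and circuits
-/

namespace Vale.Agent.P167.FKA

open Finset Filter Topology MeasureTheory Vale.Agent.P167.FK
open Vale.Agent.P145.FB (PStep PConn PP IL Inc LRc Ann IL_LRc IL_Ann IL_Hc NC Hc NN)
open Vale.Agent.P167.H259 (f_markov f_fkg f_comp f_comp2)
open Vale.Agent.P167.H871 (SB SB_mono vx px fi fi_inj uf fi_uf mem_SB_fi mem_SB_px px_vx
  ncd_of_pconn pconn_of_nc' Tg block')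
open Vale.Agent.P167.K8 (ArmF)
open Relation

variable {Q : ℝ}

/-! ### A ring of small boxes -/

/-- The centres of the boxes which cover the ring of radius `M`. -/
noncomputable def ctrM (M : ℤ) : Finset (ℤ × ℤ) :=
  (Finset.Icc (-M) M ×ˢ Finset.Icc (-M) M).filter (fun i => |i.1| = M ∨ |i.2| = M)

theorem near_ctrM {x : ℤ × ℤ} {r M : ℤ} (hr : 1 ≤ r) (hM : 0 ≤ M) {w : ℤ × ℤ}
    (hw : nm (w - x) = M * r) : ∃ i ∈ ctrM M, nm (w - gp x r i) ≤ r := by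
  have hdiv : ∀ a : ℤ, -(M * r) ≤ a → a ≤ M * r →
      -M ≤ a / r ∧ a / r ≤ M ∧ 0 ≤ a - r * (a / r) ∧ a - r * (a / r) ≤ r := by
    intro a h1 h2
    have h3 := Int.emod_add_mul_ediv a r
    have h4 := Int.emod_nonneg a (by omega : r ≠ 0)
    have h5 := Int.emod_lt_of_pos a (by omega : 0 < r)
    refine ⟨?_, ?_, by linarith, by linarith⟩
    · rw [Int.le_ediv_iff_mul_le (by omega)]; linarith
    · exact Int.ediv_le_of_le_mul (by omega) (by linarith)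
  have h1 := nm_le_iff.1 hw.le
  have h2 := le_nm_iff.1 hw.ge
  simp only [Prod.fst_sub, Prod.snd_sub] at h1 h2
  obtain ⟨a1, a2, a3, a4⟩ := hdiv (w.1 - x.1) h1.1 h1.2.1
  obtain ⟨b1, b2, b3, b4⟩ := hdiv (w.2 - x.2) h1.2.2.1 h1.2.2.2
  have hmem : ∀ i : ℤ × ℤ, -M ≤ i.1 → i.1 ≤ M → -M ≤ i.2 → i.2 ≤ M →
      (|i.1| = M ∨ |i.2| = M) → i ∈ ctrM M := by
    intro i c1 c2 c3 c4 c5
    simp only [ctrM, Finset.mem_filter, Finset.mem_product, Finset.mem_Icc]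
    exact ⟨⟨⟨c1, c2⟩, c3, c4⟩, c5⟩
  rcases h2 with h | h | h | h
  · refine ⟨(M, (w.2 - x.2) / r), hmem _ (by dsimp only; omega) (by dsimp only; omega) b1 b2
      (Or.inl (abs_of_nonneg (by omega))), ?_⟩
    rw [nm_le_iff]
    simp only [gp, Prod.fst_sub, Prod.snd_sub]
    refine ⟨?_, ?_, ?_, ?_⟩ <;> nlinarith
  · refine ⟨(-M, (w.2 - x.2) / r), hmem _ (by dsimp only; omega) (by dsimp only; omega) b1 b2
      (Or.inl (by dsimp only; rw [abs_neg, abs_of_nonneg (by omega)])), ?_⟩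
    rw [nm_le_iff]
    simp only [gp, Prod.fst_sub, Prod.snd_sub]
    refine ⟨?_, ?_, ?_, ?_⟩ <;> nlinarith
  · refine ⟨((w.1 - x.1) / r, M), hmem _ a1 a2 (by dsimp only; omega) (by dsimp only; omega)
      (Or.inr (abs_of_nonneg (by omega))), ?_⟩
    rw [nm_le_iff]
    simp only [gp, Prod.fst_sub, Prod.snd_sub]
    refine ⟨?_, ?_, ?_, ?_⟩ <;> nlinarith
  · refine ⟨((w.1 - x.1) / r, -M), hmem _ a1 a2 (by dsimp only; omega) (by dsimp only; omega)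
      (Or.inr (by dsimp only; rw [abs_neg, abs_of_nonneg (by omega)])), ?_⟩
    rw [nm_le_iff]
    simp only [gp, Prod.fst_sub, Prod.snd_sub]
    refine ⟨?_, ?_, ?_, ?_⟩ <;> nlinarith

theorem arm_ctrM {x : ℤ × ℤ} {r M Λ : ℤ} (hr : 1 ≤ r) (hΛ : 1 ≤ Λ) (hM : Λ ≤ M) {ω : Cfg}
    (h : ArmPx x ((M - Λ) * r) ((M + Λ) * r) ω) :
    ∃ i ∈ ctrM M, ArmPx (gp x r i) r (Λ * r) ω := by
  obtain ⟨u, v, h1, h2, h3, h4⟩ := h
  have h5 := rtg_of_pconn h4
  obtain ⟨w, h6, h7, h8⟩ := mid (m := M * r) h5 (by nlinarith) (by nlinarith)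
  obtain ⟨i, hi, h9⟩ := near_ctrM hr (by omega) h6
  refine ⟨i, hi, ?_⟩
  rw [armPx_iff (by nlinarith)]
  refine ⟨w, v, even_of_rtg h1 h7, h9, ?_, h8⟩
  simp only [ctrM, Finset.mem_filter, Finset.mem_product, Finset.mem_Icc] at hi
  obtain ⟨⟨⟨c1, c2⟩, c3, c4⟩, -⟩ := hi
  rw [le_nm_iff] at h3 ⊢
  simp only [gp, Prod.fst_sub, Prod.snd_sub] at h3 ⊢
  have a1 : r * i.1 ≤ M * r := by nlinarith
  have a2 : -(M * r) ≤ r * i.1 := by nlinarith
  have a3 : r * i.2 ≤ M * r := by nlinarith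
  have a4 : -(M * r) ≤ r * i.2 := by nlinarith
  rcases h3 with h | h | h | h
  · left; nlinarith
  · right; left; nlinarith
  · right; right; left; nlinarith
  · right; right; right; nlinarith

/-- Change of the ratio. -/
theorem armF_ring (hQ : 1 ≤ Q) {t Λ M : ℤ} {g : ℝ} (ht : 1 ≤ t) (hΛ : 1 ≤ Λ) (hM : Λ ≤ M)
    (hg : 0 ≤ g) (h : ArmF Q t (Λ * t) g) :
    ArmF Q ((M - Λ) * t) ((M + Λ) * t) (g ^ (ctrM M).card) := by
  have hQ0 : 0 < Q := by linarith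
  intro x D
  have h2 : g ^ (ctrM M).card ≤ Pr Q D eta0 (⋂ i ∈ ctrM M, {ω | ArmPx (gp x t i) t (Λ * t) ω}ᶜ) := by
    refine le_trans ?_ (fkg_dec f_fkg hQ f_good.2.1 (ctrM M) _ fun i _ => (inc_arm _ _ _).compl)
    rw [← Finset.prod_const]
    refine Finset.prod_le_prod (fun _ _ => hg) fun i _ => ?_
    rw [Pr_compl hQ0]
    have := h (gp x t i) D
    linarith
  have h3 : Pr Q D eta0 (⋂ i ∈ ctrM M, {ω | ArmPx (gp x t i) t (Λ * t) ω}ᶜ) ≤
      Pr Q D eta0 {ω | ArmPx x ((M - Λ) * t) ((M + Λ) * t) ω}ᶜ := by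
    refine Pr_mono hQ0 ?_
    intro ω hω hω'
    simp only [Set.mem_iInter] at hω
    obtain ⟨i, hi, h4⟩ := arm_ctrM ht hΛ hM hω'
    exact hω i hi h4
  rw [Pr_compl hQ0] at h3
  linarith

/-! ### Circuits block dual arms -/

theorem ann_block {z : ℤ × ℤ} {t p q : ℤ} (ht : 12 ≤ t) (hp : |2 * p - (z.1 + z.2 - 2)| ≤ 1)
    (hq : |2 * q - (z.1 - z.2)| ≤ 1) {ω : Cfg} (hA : Ann p q t (SB ω)) :
    ¬ ArmDx z (t - 2) (5 * (t - 2)) ω := by
  rintro ⟨u, v, h1, h2, h3, h4⟩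
  have h5 := ncd_of_pconn h1 h4
  rw [abs_le] at hp hq
  rw [nm_le_iff] at h2
  rw [le_nm_iff] at h3
  simp only [Prod.fst_sub, Prod.snd_sub] at h2 h3
  refine block' (by omega) hA (h5.mono_ (fun w hw => hw.1)) ?_ ?_ ?_
  · simp only [fi]; omega
  · simp only [fi]; omega
  · simp only [fi]; omega

theorem arm_du {x : ℤ × ℤ} {r R : ℤ} : {ω | du ω ∈ {ω | ArmPx x r R ω}} = {ω | ArmDx (shi x) r R ω} := by
  ext ω
  simp only [Set.mem_ofPred_eq]
  rw [arm_dual, sh_shi]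

theorem dec_armD (x : ℤ × ℤ) (r R : ℤ) : DecS {ω | ArmDx x r R ω} := by
  rintro ω ω' h ⟨u, v, h1, h2, h3, h4⟩
  refine ⟨u, v, h1, h2, h3, h4.mono (fun w hw => ?_) (le_refl _)⟩
  intro hw'
  exact hw (h w hw')

/-- The free measure is dual to the wired one. -/
theorem pr_free_arm (hQ : 1 ≤ Q) (D : Finset (ℤ × ℤ)) (x : ℤ × ℤ) (r R : ℤ) :
    Pr Q (D.image sh) eta0 {ω | ArmPx x r R ω} = Pr Q D eta1 {ω | ArmDx (shi x) r R ω} := by
  rw [← du_eta1, pr_dual (by linarith) f_good.2.2, arm_du]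

theorem armF_of_ann (hQ : 1 ≤ Q) {t : ℤ} (ht : 12 ≤ t) {c : ℝ}
    (h : ∀ p q : ℤ, c ≤ (ppw Q hQ).p (Ann p q t)) : ArmF Q (t - 2) (5 * (t - 2)) c := by
  have hQ0 : 0 < Q := by linarith
  intro x D
  have h1 : Pr Q D eta0 {ω | ArmPx x (t - 2) (5 * (t - 2)) ω} ≤
      Pr Q ((D.image shi).image sh) eta0 {ω | ArmPx x (t - 2) (5 * (t - 2)) ω} := by
    refine free_mono hQ ?_ (inc_arm _ _ _)
    intro v hv
    exact Finset.mem_image.2 ⟨shi v, Finset.mem_image_of_mem _ hv, sh_shi v⟩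
  rw [pr_free_arm hQ] at h1
  refine h1.trans ?_
  set z := shi x with hz
  obtain ⟨p, hp⟩ : ∃ p : ℤ, |2 * p - (z.1 + z.2 - 2)| ≤ 1 := ⟨(z.1 + z.2 - 2) / 2, by
    rw [abs_le]; omega⟩
  obtain ⟨q, hq⟩ : ∃ q : ℤ, |2 * q - (z.1 - z.2)| ≤ 1 := ⟨(z.1 - z.2) / 2, by
    rw [abs_le]; omega⟩
  have h2 : c ≤ Pr Q (D.image shi) eta1 {ω | ArmDx z (t - 2) (5 * (t - 2)) ω}ᶜ := by
    refine (h p q).trans ?_
    rw [ppw_p]
    refine (pw_le hQ (incS_of_IL (IL_Ann p q t)) (D.image shi)).trans (Pr_mono hQ0 ?_)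
    intro ω hω
    exact ann_block ht hp hq hω
  rw [Pr_compl hQ0] at h2
  linarith

/-! ### The long arm -/

theorem arm_of_Hc {s t : ℤ} (hs : 0 ≤ s) (ht : s + 2 ≤ 2 * t) {ω : Cfg}
    (h : Hc (-(2 * t)) 0 (-t) t 0 s (SB ω)) : ArmPx (1, 0) (s + 1) (2 * t - 1) ω := by
  obtain ⟨x, y, hxy, hx, hy1, hy2, hy3⟩ := h
  have h0 : NC (SB ω) y x := (hxy.mono Set.inter_subset_left).symm
  -- start at a vertex
  obtain ⟨y', hy', hev, h1, h2, h3⟩ : ∃ y' : ℤ × ℤ, NC (SB ω) y' x ∧ (Even y'.1 ∧ Even y'.2) ∧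
      y'.1 = 0 ∧ -1 ≤ y'.2 ∧ y'.2 ≤ 2 * s := by
    by_cases hpar : Even y.2
    · exact ⟨y, h0, ⟨by rw [hy1]; decide, hpar⟩, by omega, by omega, by omega⟩
    · refine ⟨(0, y.2 - 1), ?_, ⟨by simp, ?_⟩, rfl, by dsimp only; omega, by dsimp only; omega⟩
      · refine ⟨Or.inl ⟨by simp, ?_⟩, ReflTransGen.head ⟨?_, h0.1⟩ h0.2⟩
        · rw [Int.even_iff] at *
          dsimp only
          omega
        · unfold NN
          dsimp only
          omega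
      · rw [Int.even_iff] at *
        dsimp only
        omega
  have hsum : Even (y'.1 + y'.2) := hev.1.add hev.2
  set u := uf y' with hu
  have hfu : fi u = y' := fi_uf hsum
  have hue : Even (u.1 + u.2) := by
    have : fi u ∈ SB ω := by rw [hfu]; exact Or.inl hev
    exact mem_SB_fi.1 this
  have hnc : NC (SB ω ∩ Tg Set.univ) (fi u) x := by
    rw [hfu]
    exact hy'.mono_ (fun z hz => ⟨hz, fun _ _ => Set.mem_univ _⟩)
  obtain ⟨k1, k2⟩ := pconn_of_nc' hue hnc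
  have hu1 : u.1 + u.2 - 2 = y'.1 ∧ u.1 - u.2 = y'.2 := by
    rw [← hfu]; simp [fi]
  obtain ⟨s', hs', hs'x, hs'c⟩ : ∃ s' : ℤ × ℤ, Even (s'.1 + s'.2) ∧ (fi s').1 ≤ x.1 + 1 ∧
      PConn (op ω) Set.univ u s' := by
    by_cases hxo : Odd (x.1 + x.2)
    · obtain ⟨-, s', a1, a2, a3⟩ := k2 (vx x) (px_vx hxo)
      refine ⟨s', a1, ?_, a3⟩
      unfold NN at a2
      omega
    · rw [Int.not_odd_iff_even] at hxo
      have a3 := k1 (uf x) (fi_uf hxo)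
      refine ⟨uf x, ?_, by rw [fi_uf hxo]; omega, a3⟩
      have := a3.parity
      rw [Int.even_iff] at *
      omega
  rw [armPx_iff (by omega)]
  refine ⟨u, s', hue, ?_, ?_, rtg_of_pconn hs'c⟩
  · rw [nm_le_iff]
    simp only [Prod.fst_sub, Prod.snd_sub]
    omega
  · rw [le_nm_iff]
    simp only [fi] at hs'x
    simp only [Prod.fst_sub, Prod.snd_sub]
    omega

theorem long_arm (hQ : 1 ≤ Q) {c0 : ℝ} {s t : ℕ} (hs : 0 < s) (hst : 2 * s ≤ t)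
    (ha : (ppw Q hQ).al c0 t < s) :
    c0 / 4 ≤ pw Q {ω | ArmPx (1, 0) (s + 1) (2 * t - 1) ω} := by
  have hQ0 : 0 < Q := by linarith
  have h1 := (ppw Q hQ).H_gt (c0 := c0) (n := t) (by omega) (a := (s : ℤ)) (by omega)
  have h2 := (ppw Q hQ).H_nonneg t (s : ℤ) t
  have h3 := (ppw Q hQ).p_Hc_shift (-t) t (-t) t 0 s (-(t : ℤ)) 0
  have h4 : c0 / 4 ≤ (ppw Q hQ).p (Hc (-(2 * (t : ℤ))) 0 (-t) t 0 s) := by
    have : c0 / 4 ≤ (ppw Q hQ).H t 0 s := by linarith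
    rw [PP.H, ← h3] at this
    convert this using 3 <;> ring
  refine h4.trans ?_
  rw [ppw_p]
  exact pw_mono hQ0 fun ω hω => arm_of_Hc (by omega) (by omega) hω

/-! ### Products over scales -/

/-- The part of a path after its last exit from a box. -/
theorem last_exit {F : Set (ℤ × ℤ)} {x : ℤ × ℤ} {r : ℤ} {u v : ℤ × ℤ}
    (h : ReflTransGen (PStep F) u v) (hu : nm (u - x) ≤ r) (hv : r ≤ nm (v - x)) :
    ∃ w, nm (w - x) = r ∧ (u.1 + u.2) % 2 = (w.1 + w.2) % 2 ∧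
      ReflTransGen (PStep (F \ (Bq x r : Finset (ℤ × ℤ)))) w v := by
  induction h with
  | refl => exact ⟨u, le_antisymm hu hv, rfl, ReflTransGen.refl⟩
  | @tail b c hub hbc ih =>
    rcases hv.eq_or_lt with h1 | h1
    · exact ⟨c, h1.symm, rtg_parity (hub.tail hbc), ReflTransGen.refl⟩
    · have h2 := nm_step (x := x) hbc
      obtain ⟨w, h3, h4, h5⟩ := ih (by omega)
      refine ⟨w, h3, h4, h5.tail ⟨hbc.1, hbc.2.1, hbc.2.2, ?_⟩⟩
      intro h6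
      have h7 := (step_nm hbc (Finset.mem_coe.1 h6)).2
      omega

theorem arm_ind {x : ℤ × ℤ} {r R : ℤ} (hrR : r ≤ R) :
    Ind (Bq x r) ({ω | ArmPx x r R ω}.indicator 1) := by
  have key : ∀ ω ω' : Cfg, (∀ v, v ∉ Bq x r → ω v = ω' v) → ArmPx x r R ω → ArmPx x r R ω' := by
    intro ω ω' h ha
    rw [armPx_iff hrR] at ha ⊢
    obtain ⟨u, v, h1, h2, h3, h4⟩ := ha
    obtain ⟨w, h5, h6, h7⟩ := last_exit h4 h2 (hrR.trans h3)
    refine ⟨w, v, by rw [Int.even_iff] at *; omega, h5.le, h3, ?_⟩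
    refine Vale.Agent.P167.H166.rtg_mono ?_ h7
    intro q hq
    show ω' q = true
    rw [← h q (fun hc => hq.2 (Finset.mem_coe.2 hc))]
    exact hq.1
  intro ω ω' h
  by_cases h1 : ω ∈ {ω | ArmPx x r R ω}
  · have h2 : ω' ∈ {ω | ArmPx x r R ω} := key ω ω' h h1
    rw [Set.indicator_of_mem h1, Set.indicator_of_mem h2]
    rfl
  · have h2 : ω' ∉ {ω | ArmPx x r R ω} := fun h2 => h1 (key ω' ω (fun v hv => (h v hv).symm) h2)
    rw [Set.indicator_of_notMem h1, Set.indicator_of_notMem h2]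

/-- Blocks of scales, from the inside out. -/
theorem arm_prod (hQ : 1 ≤ Q) {x : ℤ × ℤ} {a b : ℕ → ℤ} (hab : ∀ i, a i ≤ b i)
    (hba : ∀ i, b i ≤ a (i + 1)) {p : ℝ} (hp0 : 0 ≤ p) : ∀ m : ℕ,
    (∀ i < m, Pr Q (Bq x (b i)) eta1 {ω | ArmPx x (a i) (b i) ω} ≤ p) →
    ∀ (D : Finset (ℤ × ℤ)) (η : Cfg) (G : Cfg → ℝ), Good η → (∀ i < m, Bq x (b i) ⊆ D) →
      (∀ ω, 0 ≤ G ω) → (∀ i < m, Ind (Bq x (b i)) G) →
      Ex Q D η (fun ω => G ω * (⋂ i ∈ Finset.range m, {ω | ArmPx x (a i) (b i) ω}).indicator 1 ω) ≤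
        p ^ m * Ex Q D η G := by
  have hQ0 : 0 < Q := by linarith
  intro m
  induction m with
  | zero =>
    intro _ D η G _ _ _ _
    simp
  | succ m ih =>
    intro hp D η G hη hD hG0 hG
    have h1 := ih (fun i hi => hp i (by omega)) D η
      (fun ω => G ω * {ω | ArmPx x (a m) (b m) ω}.indicator 1 ω) hη (fun i hi => hD i (by omega))
      (fun ω => mul_nonneg (hG0 ω) (ind_nonneg _ _)) ?_
    · have h2 := markov_le f_markov f_good hQ0 (hD m (by omega)) hη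
        (F := {ω | ArmPx x (a m) (b m) ω}.indicator 1) (hG m (by omega)) hG0 (a := p)
        (fun ω hω => (f_comp Q _ ω eta1 _ hQ hω f_good.2.2 (fun _ _ => rfl)
          (inc_arm _ _ _).incF).trans (hp m (by omega)))
      have h3 : Ex Q D η (fun ω => G ω *
          (⋂ i ∈ Finset.range (m + 1), {ω | ArmPx x (a i) (b i) ω}).indicator 1 ω) =
          Ex Q D η (fun ω => G ω * {ω | ArmPx x (a m) (b m) ω}.indicator 1 ω *
            (⋂ i ∈ Finset.range m, {ω | ArmPx x (a i) (b i) ω}).indicator 1 ω) := by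
        refine Ex_congr fun S _ => ?_
        rw [Finset.range_add_one, Finset.set_biInter_insert, ind_inter]
        ring
      rw [h3, pow_succ, mul_assoc]
      exact h1.trans (mul_le_mul_of_nonneg_left h2 (by positivity))
    · intro i hi
      have hbm : b i ≤ a m := by
        obtain ⟨k, rfl⟩ : ∃ k, m = i + 1 + k := ⟨m - (i + 1), by omega⟩
        clear ih hp hD hG hi
        induction k with
        | zero => exact hba i
        | succ k ih =>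
          exact ih.trans ((hab _).trans (hba _))
      exact (hG i (by omega)).mul ((arm_ind (hab m)).mono (Bq_mono hbm))

end Vale.Agent.P167.FKA
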